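import Mathlib

/-! Definitions used in the statement for P314. -/

namespace Vale.Agent.P314

open Computability

/-- Noncommutative formulas over `F` in the variables `x_0, …, x_{n-1}`: rooted binary trees with
variables or scalars at the leaves and addition or (ordered) multiplication gates. -/
inductive Formula (F : Type) (n : ℕ) : Type
  | var : Fin n → Formula F n
  | const : F → Formula F n
  | add : Formula F n → Formula F n → Formula F n
  | mul : Formula F n → Formula F n → Formula F n

/-- The size of a formula: the number of vertices, leaves included. -/
def Formula.size {F : Type} {n : ℕ} : Formula F n → ℕ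
  | .var _ => 1
  | .const _ => 1
  | .add a b => a.size + b.size + 1
  | .mul a b => a.size + b.size + 1

/-- The element of the free associative algebra computed by a formula. -/
noncomputable def Formula.poly {F : Type} [Field F] {n : ℕ} : Formula F n → FreeAlgebra F (Fin n)
  | .var i => FreeAlgebra.ι F i
  | .const c => algebraMap F (FreeAlgebra F (Fin n)) c
  | .add a b => a.poly + b.poly
  | .mul a b => a.poly * b.poly

/-- A matrix point: a dimension `d` and an `n`-tuple of `d × d` matrices over `F`. -/
structure Point (F : Type) (n : ℕ) : Type where
  d : ℕ
  T : Fin n → Matrix (Fin d) (Fin d) F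

/-- `H` is a hitting set for the polynomials computed by formulas of size at most `s`. -/
def IsHittingSet {F : Type} [Field F] {n : ℕ} (s : ℕ) (H : List (Point F n)) : Prop :=
  ∀ φ : Formula F n, φ.size ≤ s → φ.poly ≠ 0 →
    ∃ P ∈ H, FreeAlgebra.lift F P.T φ.poly ≠ 0

/-- The input word: `n` in unary, a comma, `s` in unary. -/
def inputCode (p : ℕ × ℕ) : List Γ' :=
  List.replicate p.1 (Γ'.bit true) ++ Γ'.comma :: List.replicate p.2 (Γ'.bit true)

/-- A matrix entry: the binary code of the field element, then a comma. -/
def entryCode {F : Type} (e : Encoding F Bool) (a : F) : List Γ' :=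
  (e.encode a).map Γ'.bit ++ [Γ'.comma]

/-- A matrix: its rows in order, each row the bracketed list of its entries; all in brackets. -/
def matrixCode {F : Type} (e : Encoding F Bool) {d : ℕ} (A : Matrix (Fin d) (Fin d) F) : List Γ' :=
  Γ'.bra :: (List.finRange d).flatMap (fun i =>
    Γ'.bra :: (List.finRange d).flatMap (fun j => entryCode e (A i j)) ++ [Γ'.ket]) ++ [Γ'.ket]

/-- A point: the dimension in unary (blanks), then the `n` matrices in order; all in brackets. -/
def pointCode {F : Type} (e : Encoding F Bool) {n : ℕ} (P : Point F n) : List Γ' :=
  Γ'.bra :: List.replicate P.d Γ'.blank ++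
    (List.finRange n).flatMap (fun i => matrixCode e (P.T i)) ++ [Γ'.ket]

/-- A finite set of points, listed: the concatenation of the codes of the points. -/
def setCode {F : Type} (e : Encoding F Bool) {n : ℕ} (H : List (Point F n)) : List Γ' :=
  H.flatMap (pointCode e)

end Vale.Agent.P314
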