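import Mathlib

/-! The semilinear chain argument. -/

namespace Vale.Agent.P314

open Finset

variable {K : Type*} [Field K] {n : ℕ}

/-- The semilinear operator on series. -/
def Theta (τ : K →+* K) (c : Fin n → K) (y : List (Fin n) → K) : List (Fin n) → K :=
  fun w => τ (y w) + ∑ j, c j * τ (y (j :: w))

/-- No nontrivial invariant combination of the `c j` is a difference. -/
def NonSummable (τ : K →+* K) (c : Fin n → K) : Prop :=
  ∀ (α : Fin n → K) (ρ : K), (∀ j, τ (α j) = α j) → ρ - τ ρ = ∑ j, α j * c j → ∀ j, α j = 0

theorem Theta_add (τ : K →+* K) (c : Fin n → K) (y z : List (Fin n) → K) :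
    Theta τ c (y + z) = Theta τ c y + Theta τ c z := by
  funext w
  simp only [Theta, Pi.add_apply, map_add, mul_add, Finset.sum_add_distrib]
  ring

theorem Theta_smul (τ : K →+* K) (c : Fin n → K) (a : K) (y : List (Fin n) → K) :
    Theta τ c (a • y) = τ a • Theta τ c y := by
  funext w
  simp only [Theta, Pi.smul_apply, smul_eq_mul, map_mul, mul_add, Finset.mul_sum]
  congr 1
  refine Finset.sum_congr rfl fun j _ => by ring

theorem Theta_zero (τ : K →+* K) (c : Fin n → K) : Theta τ c 0 = 0 := by
  funext w
  simp [Theta]

theorem Theta_iter_add (τ : K →+* K) (c : Fin n → K) (i : ℕ) (y z : List (Fin n) → K) :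
    (Theta τ c)^[i] (y + z) = (Theta τ c)^[i] y + (Theta τ c)^[i] z := by
  induction i generalizing y z with
  | zero => rfl
  | succ i ih => simp only [Function.iterate_succ_apply, Theta_add, ih]

theorem Theta_iter_smul (τ : K →+* K) (c : Fin n → K) (i : ℕ) (a : K) (y : List (Fin n) → K) :
    (Theta τ c)^[i] (a • y) = (τ^[i] a) • (Theta τ c)^[i] y := by
  induction i generalizing a y with
  | zero => rfl
  | succ i ih => simp only [Function.iterate_succ_apply, Theta_smul, ih]

theorem Theta_iter_zero (τ : K →+* K) (c : Fin n → K) (i : ℕ) :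
    (Theta τ c)^[i] 0 = 0 := Function.iterate_fixed (Theta_zero τ c) i

theorem stable_eq_zero (τ : K →+* K) (c : Fin n → K) (hc : NonSummable τ c)
    (W : Submodule K (List (Fin n) → K)) (hW : ∀ y ∈ W, Theta τ c y ∈ W)
    (h0 : ∀ y ∈ W, y [] = 0) (D : ℕ) :
    ∀ y ∈ W, (∀ w, D ≤ w.length → y w = 0) → y = 0 := by
  classical
  induction D with
  | zero => intro y _ hy; funext w; exact hy w (Nat.zero_le _)
  | succ D ihD =>
    have hfin : {w : List (Fin n) | w.length = D}.Finite := List.finite_length_eq _ D
    suffices h : ∀ N : ℕ, ∀ y ∈ W, (∀ w, D + 1 ≤ w.length → y w = 0) →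
        (hfin.toFinset.filter (fun w => y w ≠ 0)).card ≤ N → y = 0 from
      fun y hy hy' => h _ y hy hy' le_rfl
    intro N
    induction N with
    | zero =>
      intro y hy hy' hcard
      refine ihD y hy fun w hw => ?_
      rcases Nat.eq_or_lt_of_le hw with h | h
      · by_contra hne
        have : w ∈ hfin.toFinset.filter (fun w => y w ≠ 0) := by
          simp [h.symm, hne]
        have := Finset.card_pos.mpr ⟨w, this⟩
        omega
      · exact hy' w h
    | succ N ihN =>
      intro y hy hy' hcard
      by_cases hemp : (hfin.toFinset.filter (fun w => y w ≠ 0)).card = 0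
      · exact ihN y hy hy' (by omega)
      exfalso
      obtain ⟨w0, hw0⟩ := Finset.card_pos.mp (Nat.pos_of_ne_zero hemp)
      simp only [Finset.mem_filter, Set.Finite.mem_toFinset, Set.mem_ofPred_eq] at hw0
      obtain ⟨hw0l, hw0⟩ := hw0
      set y' : List (Fin n) → K := (y w0)⁻¹ • y with hy'def
      have hy'W : y' ∈ W := W.smul_mem _ hy
      have hy'0 : y' w0 = 1 := by simp [hy'def, hw0]
      have hy'long : ∀ w, D + 1 ≤ w.length → y' w = 0 := fun w hw => by simp [hy'def, hy' w hw]
      set z : List (Fin n) → K := Theta τ c y' - y' with hzdef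
      have hzW : z ∈ W := W.sub_mem (hW _ hy'W) hy'W
      have hztop : ∀ w, D ≤ w.length → z w = τ (y' w) - y' w := by
        intro w hw
        simp only [hzdef, Pi.sub_apply, Theta]
        rw [Finset.sum_eq_zero]
        · simp
        · intro j _
          rw [hy'long (j :: w) (by simpa using hw)]
          simp
      have hzlong : ∀ w, D + 1 ≤ w.length → z w = 0 := by
        intro w hw
        rw [hztop w (by omega), hy'long w hw]
        simp
      have hz : z = 0 := by
        refine ihN z hzW hzlong ?_
        have hsub : hfin.toFinset.filter (fun w => z w ≠ 0) ⊆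
            (hfin.toFinset.filter (fun w => y w ≠ 0)).erase w0 := by
          intro w hw
          simp only [Finset.mem_filter, Set.Finite.mem_toFinset, Set.mem_ofPred_eq,
            Finset.mem_erase] at hw ⊢
          obtain ⟨hl, hw⟩ := hw
          rw [hztop w hl.ge] at hw
          refine ⟨?_, hl, ?_⟩
          · rintro rfl
            rw [hy'0] at hw
            simp at hw
          · intro h
            apply hw
            simp [hy'def, h]
        have h1 := Finset.card_le_card hsub
        rw [Finset.card_erase_of_mem (by simp [hw0l, hw0])] at h1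
        omega
      cases w0 with
      | nil => exact hw0 (h0 y hy)
      | cons j0 w' =>
        have hl : ∀ j : Fin n, D ≤ (j :: w').length := fun j => by
          simp only [List.length_cons] at hw0l ⊢; omega
        have hinv : ∀ j, τ (y' (j :: w')) = y' (j :: w') := fun j => by
          have := hztop (j :: w') (hl j)
          rw [hz] at this
          simp only [Pi.zero_apply] at this
          exact sub_eq_zero.mp this.symm
        have heq : y' w' - τ (y' w') = ∑ j, y' (j :: w') * c j := by
          have h2 : z w' = 0 := by rw [hz]; rfl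
          simp only [hzdef, Pi.sub_apply, Theta, hinv] at h2
          have h3 : ∑ j, y' (j :: w') * c j = ∑ j, c j * y' (j :: w') :=
            Finset.sum_congr rfl fun j _ => mul_comm _ _
          rw [h3]
          linear_combination -h2
        have := hc (fun j => y' (j :: w')) (y' w') hinv heq j0
        rw [hy'0] at this
        exact one_ne_zero this

/-- The chain of subspaces cut out by the first `k` tests. -/
def chainW (τ : K →+* K) (c : Fin n → K) (V : Submodule K (List (Fin n) → K)) (k : ℕ) :
    Submodule K (List (Fin n) → K) where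
  carrier := {y | y ∈ V ∧ ∀ i < k, (Theta τ c)^[i] y [] = 0}
  add_mem' := by
    rintro y z ⟨hy, hy'⟩ ⟨hz, hz'⟩
    refine ⟨V.add_mem hy hz, fun i hi => ?_⟩
    rw [Theta_iter_add, Pi.add_apply, hy' i hi, hz' i hi, add_zero]
  zero_mem' := ⟨V.zero_mem, fun i _ => by rw [Theta_iter_zero]; rfl⟩
  smul_mem' := by
    rintro a y ⟨hy, hy'⟩
    refine ⟨V.smul_mem a hy, fun i hi => ?_⟩
    rw [Theta_iter_smul, Pi.smul_apply, hy' i hi, smul_zero]

theorem mem_chainW {τ : K →+* K} {c : Fin n → K} {V : Submodule K (List (Fin n) → K)} {k : ℕ}
    {y : List (Fin n) → K} :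
    y ∈ chainW τ c V k ↔ y ∈ V ∧ ∀ i < k, (Theta τ c)^[i] y [] = 0 := Iff.rfl

theorem key (τ : K →+* K) (c : Fin n → K) (hc : NonSummable τ c)
    (V : Submodule K (List (Fin n) → K)) [FiniteDimensional K V]
    (hV : ∀ y ∈ V, Theta τ c y ∈ V)
    (hb : ∀ y ∈ V, ∃ D, ∀ w, D ≤ w.length → y w = 0)
    (m : ℕ) (hm : Module.finrank K V ≤ m) (y : List (Fin n) → K) (hy : y ∈ V)
    (h : ∀ i < m, (Theta τ c)^[i] y [] = 0) : y = 0 := by
  have hle : ∀ k, chainW τ c V k ≤ V := fun k y hy => hy.1
  have hfd : ∀ k, FiniteDimensional K (chainW τ c V k) := fun k =>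
    Submodule.finiteDimensional_of_le (hle k)
  have hstep : ∀ k, chainW τ c V k = ⊥ ∨
      Module.finrank K (chainW τ c V k) + k ≤ Module.finrank K V := by
    intro k
    induction k with
    | zero =>
      right
      simpa using Submodule.finrank_mono (hle 0)
    | succ k ih =>
      have hanti : chainW τ c V (k + 1) ≤ chainW τ c V k :=
        fun y hy => ⟨hy.1, fun i hi => hy.2 i (by omega)⟩
      rcases ih with ih | ih
      · left
        exact le_bot_iff.mp (ih ▸ hanti)
      · rcases eq_or_lt_of_le hanti with heq | hlt
        · left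
          rw [eq_bot_iff]
          intro z hz
          obtain ⟨D, hD⟩ := hb z hz.1
          refine stable_eq_zero τ c hc (chainW τ c V (k + 1)) ?_ ?_ D z hz hD
          · intro u hu
            rw [heq]
            refine ⟨hV u hu.1, fun i hi => ?_⟩
            rw [← Function.iterate_succ_apply]
            exact hu.2 (i + 1) (by omega)
          · intro u hu
            exact hu.2 0 (by omega)
        · right
          have := hfd k
          have := Submodule.finrank_lt_finrank_of_lt hlt
          omega
  have hy' : y ∈ chainW τ c V m := ⟨hy, h⟩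
  rcases hstep m with h1 | h1
  · rw [h1] at hy'
    exact hy'
  · have := hfd m
    have h2 : Module.finrank K (chainW τ c V m) = 0 := by omega
    rw [Submodule.finrank_eq_zero] at h2
    rw [h2] at hy'
    exact hy'

end Vale.Agent.P314
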