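import Mathlib
import Vale.Agent.P314.Key

/-! The test functionals. -/

namespace Vale.Agent.P314

open Finset

variable {n : ℕ}

/-- Left quotient by a letter. -/
def shift {R : Type*} (j : Fin n) (y : List (Fin n) → R) : List (Fin n) → R := fun w => y (j :: w)

/-- The test functionals. -/
def HF {R : Type*} [CommRing R] (δ : ℕ → R) (γ : Fin n → ℕ → R) : ℕ → (List (Fin n) → R) → R
  | 0, y => y []
  | k + 1, y => δ k * HF δ γ k y + ∑ j, γ j k * HF δ γ k (shift j y)

section
variable {R : Type*} [CommRing R]

theorem HF_add (δ : ℕ → R) (γ : Fin n → ℕ → R) (k : ℕ) (y z : List (Fin n) → R) :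
    HF δ γ k (y + z) = HF δ γ k y + HF δ γ k z := by
  induction k generalizing y z with
  | zero => rfl
  | succ k ih =>
    have : ∀ j, shift j (y + z) = shift j y + shift j z := fun j => rfl
    simp only [HF, this, ih, mul_add, Finset.sum_add_distrib]
    ring

theorem HF_smul (δ : ℕ → R) (γ : Fin n → ℕ → R) (k : ℕ) (a : R) (y : List (Fin n) → R) :
    HF δ γ k (a • y) = a * HF δ γ k y := by
  induction k generalizing y with
  | zero => rfl
  | succ k ih =>
    have : ∀ j, shift j (a • y) = a • shift j y := fun j => rfl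
    simp only [HF, this, ih, mul_add, Finset.mul_sum]
    congr 1
    · ring
    · exact Finset.sum_congr rfl fun j _ => by ring

theorem HF_zero (δ : ℕ → R) (γ : Fin n → ℕ → R) (k : ℕ) :
    HF δ γ k (0 : List (Fin n) → R) = 0 := by
  have := HF_smul δ γ k 0 (0 : List (Fin n) → R)
  simpa using this

theorem HF_sum (δ : ℕ → R) (γ : Fin n → ℕ → R) (k : ℕ) {ι : Type*} (s : Finset ι)
    (y : ι → List (Fin n) → R) : HF δ γ k (∑ i ∈ s, y i) = ∑ i ∈ s, HF δ γ k (y i) := by
  classical
  induction s using Finset.induction_on with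
  | empty => simp [HF_zero]
  | insert a s ha ih => rw [Finset.sum_insert ha, Finset.sum_insert ha, HF_add, ih]

theorem HF_map {R' : Type*} [CommRing R'] (φ : R →+* R') (δ : ℕ → R) (γ : Fin n → ℕ → R) (k : ℕ)
    (y : List (Fin n) → R) :
    φ (HF δ γ k y) = HF (fun a => φ (δ a)) (fun j a => φ (γ j a)) k (fun w => φ (y w)) := by
  induction k generalizing y with
  | zero => rfl
  | succ k ih =>
    simp only [HF, map_add, map_mul, map_sum, ih]
    rfl

theorem HF_scale (δ : ℕ → R) (γ γ' : Fin n → ℕ → R) (h : ∀ j a, γ' j a = δ a * γ j a) (k : ℕ)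
    (y : List (Fin n) → R) :
    HF δ γ' k y = (∏ a ∈ range k, δ a) * HF (fun _ => 1) γ k y := by
  induction k generalizing y with
  | zero => simp [HF]
  | succ k ih =>
    simp only [HF, ih, h, Finset.prod_range_succ, one_mul, mul_add, Finset.mul_sum]
    congr 1
    · ring
    · exact Finset.sum_congr rfl fun j _ => by ring

theorem HF_natDegree (δ : ℕ → Polynomial R) (γ : Fin n → ℕ → Polynomial R) (N k : ℕ)
    (hδ : ∀ a < k, (δ a).natDegree ≤ N) (hγ : ∀ j, ∀ a < k, (γ j a).natDegree ≤ N)
    (y : List (Fin n) → Polynomial R) (hy : ∀ w, (y w).natDegree = 0) :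
    (HF δ γ k y).natDegree ≤ k * N := by
  induction k generalizing y with
  | zero => simp [HF, hy]
  | succ k ih =>
    have ih' := fun y hy => ih (fun a ha => hδ a (by omega)) (fun j a ha => hγ j a (by omega)) y hy
    simp only [HF]
    refine Polynomial.natDegree_add_le_of_degree_le ?_ ?_
    · refine Polynomial.natDegree_mul_le.trans ?_
      have := ih' y hy
      have := hδ k (by omega)
      nlinarith
    · refine Polynomial.natDegree_sum_le_of_forall_le _ _ fun j _ => ?_
      refine Polynomial.natDegree_mul_le.trans ?_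
      have := ih' (shift j y) (fun w => hy _)
      have := hγ j k (by omega)
      nlinarith

/-- Left multiplication by a letter. -/
def lmul (j : Fin n) (y : List (Fin n) → R) : List (Fin n) → R
  | [] => 0
  | i :: w => if i = j then y w else 0

theorem shift_lmul (i j : Fin n) (y : List (Fin n) → R) :
    shift i (lmul j y) = if i = j then y else 0 := by
  funext w
  by_cases h : i = j <;> simp [shift, lmul, h]

theorem HF_lmul (γ : Fin n → ℕ → R) (k : ℕ) (j : Fin n) (y : List (Fin n) → R) :
    HF (fun _ => 1) γ k (lmul j y) = ∑ a ∈ range k, γ j a * HF (fun _ => 1) γ a y := by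
  induction k with
  | zero => simp [HF, lmul]
  | succ k ih =>
    rw [Finset.sum_range_succ, ← ih]
    simp only [HF, one_mul, shift_lmul]
    congr 1
    rw [Finset.sum_eq_single j]
    · simp
    · intro i _ hi
      simp [hi, HF_zero]
    · simp

end

theorem Theta_iter_eq {K : Type*} [Field K] (τ : K →+* K) (c : Fin n → K) (k : ℕ)
    (y : List (Fin n) → K) :
    (Theta τ c)^[k] y [] = HF (fun _ => 1) (fun j a => τ^[a] (c j)) k (fun w => τ^[k] (y w)) := by
  induction k generalizing y with
  | zero => rfl
  | succ k ih =>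
    rw [Function.iterate_succ_apply, ih]
    have : (fun w => τ^[k] (Theta τ c y w)) = (fun w => τ^[k + 1] (y w)) +
        ∑ j, τ^[k] (c j) • shift j (fun w => τ^[k + 1] (y w)) := by
      funext w
      simp only [Theta, Pi.add_apply, Finset.sum_apply, Pi.smul_apply, shift, smul_eq_mul,
        Function.iterate_succ_apply, ← RingHom.coe_pow, map_add, map_sum, map_mul]
    rw [this, HF_add, HF_sum]
    simp only [HF, HF_smul, one_mul]

end Vale.Agent.P314
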