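import Mathlib
import Vale.Agent.P314.Defs
import Vale.Agent.P314.HFun

/-! Coefficients of noncommutative polynomials and the small invariant subspace. -/

namespace Vale.Agent.P314

open Finset

variable {n : ℕ} {F : Type} [Field F]

/-- The coefficient function of a noncommutative polynomial. -/
noncomputable def cf (f : FreeAlgebra F (Fin n)) : List (Fin n) → F :=
  fun w => (FreeAlgebra.equivMonoidAlgebraFreeMonoid f).coeff (FreeMonoid.ofList w)

theorem cf_add (f g : FreeAlgebra F (Fin n)) : cf (f + g) = cf f + cf g := by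
  funext w
  simp [cf]

theorem cf_smul (a : F) (f : FreeAlgebra F (Fin n)) : cf (a • f) = a • cf f := by
  funext w
  simp [cf]

theorem cf_eq_zero {f : FreeAlgebra F (Fin n)} (h : cf f = 0) : f = 0 := by
  apply FreeAlgebra.equivMonoidAlgebraFreeMonoid.injective
  rw [map_zero]
  ext w
  have := congrFun h (FreeMonoid.toList w)
  simpa [cf] using this

theorem cf_one : cf (1 : FreeAlgebra F (Fin n)) = fun w => if w = [] then 1 else 0 := by
  funext w
  simp only [cf, map_one, MonoidAlgebra.one_def, MonoidAlgebra.coeff_single]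
  split_ifs with h
  · subst h
    exact Finsupp.single_eq_same
  · refine Finsupp.single_eq_of_ne fun h' => h ?_
    have := congrArg FreeMonoid.toList h'
    simpa using this

theorem cf_ι_mul (j : Fin n) (g : FreeAlgebra F (Fin n)) :
    cf (FreeAlgebra.ι F j * g) = lmul j (cf g) := by
  funext w
  have h1 : FreeAlgebra.equivMonoidAlgebraFreeMonoid (FreeAlgebra.ι F j) =
      MonoidAlgebra.single (FreeMonoid.of j) (1 : F) := by
    simp [FreeAlgebra.equivMonoidAlgebraFreeMonoid]
  simp only [cf, map_mul, h1]
  cases w with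
  | nil =>
    rw [MonoidAlgebra.coeff_single_mul_of_forall_mul_ne]
    · rfl
    · intro d h
      have := congrArg FreeMonoid.toList h
      simp at this
  | cons i w =>
    by_cases hij : i = j
    · subst hij
      have : FreeMonoid.ofList (i :: w) = FreeMonoid.of i * FreeMonoid.ofList w := rfl
      rw [this, MonoidAlgebra.coeff_single_mul_mul]
      simp [lmul, cf]
    · rw [MonoidAlgebra.coeff_single_mul_of_forall_mul_ne]
      · simp [lmul, hij]
      · intro d h
        have := congrArg FreeMonoid.toList h
        simp at this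
        exact hij this.1.symm

variable {K : Type*} [Field K]

/-- The invariants of the subspace built along a formula. -/
structure Good (τ : K →+* K) (V : Submodule K (List (Fin n) → K)) : Prop where
  fd : FiniteDimensional K V
  sh : ∀ y ∈ V, ∀ j, shift j y ∈ V
  ta : ∀ y ∈ V, (fun w => τ (y w)) ∈ V
  bd : ∀ y ∈ V, ∃ D, ∀ w, D ≤ w.length → y w = 0

theorem Good.theta {τ : K →+* K} {V : Submodule K (List (Fin n) → K)} (h : Good τ V)
    (c : Fin n → K) : ∀ y ∈ V, Theta τ c y ∈ V := by
  intro y hy
  have : Theta τ c y = (fun w => τ (y w)) + ∑ j, c j • shift j (fun w => τ (y w)) := by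
    funext w
    simp [Theta, shift, Finset.sum_apply]
  rw [this]
  exact V.add_mem (h.ta y hy) (V.sum_mem fun j _ => V.smul_mem _ (h.sh _ (h.ta y hy) j))

theorem Good.extend {τ : K →+* K} {V : Submodule K (List (Fin n) → K)} (h : Good τ V)
    (z : List (Fin n) → K) (hz : ∀ j, shift j z ∈ V) (hτ : ∀ w, τ (z w) = z w)
    (hb : ∃ D, ∀ w, D ≤ w.length → z w = 0) :
    Good τ (V ⊔ K ∙ z) ∧ Module.finrank K ↥(V ⊔ K ∙ z) ≤ Module.finrank K V + 1 := by
  have := h.fd
  refine ⟨⟨inferInstance, ?_, ?_, ?_⟩, ?_⟩
  · intro y hy j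
    obtain ⟨v, hv, u, hu, rfl⟩ := Submodule.mem_sup.mp hy
    obtain ⟨a, rfl⟩ := Submodule.mem_span_singleton.mp hu
    have : shift j (v + a • z) = shift j v + a • shift j z := rfl
    rw [this]
    exact Submodule.mem_sup_left (V.add_mem (h.sh v hv j) (V.smul_mem a (hz j)))
  · intro y hy
    obtain ⟨v, hv, u, hu, rfl⟩ := Submodule.mem_sup.mp hy
    obtain ⟨a, rfl⟩ := Submodule.mem_span_singleton.mp hu
    have : (fun w => τ ((v + a • z) w)) = (fun w => τ (v w)) + τ a • z := by
      funext w
      simp [hτ]
    rw [this]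
    exact Submodule.add_mem_sup (h.ta v hv)
      (Submodule.smul_mem _ _ (Submodule.mem_span_singleton_self z))
  · intro y hy
    obtain ⟨v, hv, u, hu, rfl⟩ := Submodule.mem_sup.mp hy
    obtain ⟨a, rfl⟩ := Submodule.mem_span_singleton.mp hu
    obtain ⟨D, hD⟩ := h.bd v hv
    obtain ⟨D', hD'⟩ := hb
    refine ⟨max D D', fun w hw => ?_⟩
    simp [hD w (le_of_max_le_left hw), hD' w (le_of_max_le_right hw)]
  · refine (Submodule.finrank_add_le_finrank_add_finrank V (K ∙ z)).trans ?_
    have := finrank_span_le_card (R := K) ({z} : Set (List (Fin n) → K))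
    simp only [Set.toFinset_singleton, Finset.card_singleton] at this
    omega

theorem good_bot (τ : K →+* K) : Good τ (⊥ : Submodule K (List (Fin n) → K)) := by
  refine ⟨inferInstance, ?_, ?_, ?_⟩
  · intro y hy j
    rw [Submodule.mem_bot] at hy ⊢
    subst hy
    rfl
  · intro y hy
    rw [Submodule.mem_bot] at hy ⊢
    subst hy
    funext w
    simp
  · intro y hy
    rw [Submodule.mem_bot] at hy
    subst hy
    exact ⟨0, fun _ _ => rfl⟩

theorem formula_subspace (τ : K →+* K) (ι : F →+* K) (hι : ∀ a, τ (ι a) = ι a)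
    (φ : Formula F n) :
    ∀ (V : Submodule K (List (Fin n) → K)) (g : FreeAlgebra F (Fin n)), Good τ V →
      (fun w => ι (cf g w)) ∈ V → ∃ V' : Submodule K (List (Fin n) → K), V ≤ V' ∧ Good τ V' ∧
        Module.finrank K V' ≤ Module.finrank K V + φ.size ∧
        (fun w => ι (cf (φ.poly * g) w)) ∈ V' := by
  induction φ with
  | var j =>
    intro V g hV hg
    have e : (fun w => ι (cf ((Formula.var j : Formula F n).poly * g) w)) =
        lmul j (fun w => ι (cf g w)) := by
      funext w
      simp only [Formula.poly, cf_ι_mul]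
      cases w with
      | nil => simp [lmul]
      | cons i w => by_cases h : i = j <;> simp [lmul, h]
    obtain ⟨h1, h2⟩ := hV.extend (lmul j (fun w => ι (cf g w))) (fun i => by
        rw [shift_lmul]
        split_ifs
        · exact hg
        · exact V.zero_mem)
      (fun w => by rw [← e]; exact hι _) (by
        obtain ⟨D, hD⟩ := hV.bd _ hg
        refine ⟨D + 1, fun w hw => ?_⟩
        cases w with
        | nil => rfl
        | cons i w =>
          have := hD w (by simpa using hw)
          simp only [lmul, this, ite_self])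
    refine ⟨_, le_sup_left, h1, h2, ?_⟩
    rw [e]
    exact Submodule.mem_sup_right (Submodule.mem_span_singleton_self _)
  | const a =>
    intro V g hV hg
    refine ⟨V, le_rfl, hV, by omega, ?_⟩
    have e : (fun w => ι (cf ((Formula.const a : Formula F n).poly * g) w)) =
        ι a • (fun w => ι (cf g w)) := by
      funext w
      simp [Formula.poly, ← Algebra.smul_def, cf_smul]
    rw [e]
    exact V.smul_mem _ hg
  | add a b iha ihb =>
    intro V g hV hg
    obtain ⟨V1, h1, hV1, hr1, hm1⟩ := iha V g hV hg
    obtain ⟨V2, h2, hV2, hr2, hm2⟩ := ihb V1 g hV1 (h1 hg)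
    refine ⟨V2, h1.trans h2, hV2, by simp only [Formula.size]; omega, ?_⟩
    have e : (fun w => ι (cf ((Formula.add a b).poly * g) w)) =
        (fun w => ι (cf (a.poly * g) w)) + (fun w => ι (cf (b.poly * g) w)) := by
      funext w
      simp [Formula.poly, add_mul, cf_add]
    rw [e]
    exact V2.add_mem (h2 hm1) hm2
  | mul a b iha ihb =>
    intro V g hV hg
    obtain ⟨V1, h1, hV1, hr1, hm1⟩ := ihb V g hV hg
    obtain ⟨V2, h2, hV2, hr2, hm2⟩ := iha V1 (b.poly * g) hV1 hm1
    refine ⟨V2, h1.trans h2, hV2, by simp only [Formula.size]; omega, ?_⟩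
    simpa only [Formula.poly, mul_assoc] using hm2

theorem formula_test (τ : K →+* K) (ι : F →+* K) (hι : ∀ a, τ (ι a) = ι a) (c : Fin n → K)
    (hc : NonSummable τ c) (φ : Formula F n) (s : ℕ) (hs : φ.size ≤ s) (hφ : φ.poly ≠ 0) :
    ∃ k < s + 1, HF (fun _ => 1) (fun j a => τ^[a] (c j)) k (fun w => ι (cf φ.poly w)) ≠ 0 := by
  have e1 : ∀ j : Fin n, shift j (fun w => ι (cf (1 : FreeAlgebra F (Fin n)) w)) = 0 := by
    intro j
    funext w
    simp [shift, cf_one]
  obtain ⟨h1, h2⟩ := (good_bot τ).extend (fun w => ι (cf (1 : FreeAlgebra F (Fin n)) w))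
    (fun j => by rw [e1]; exact Submodule.zero_mem _) (fun w => hι _)
    ⟨1, fun w hw => by
      cases w with
      | nil => simp at hw
      | cons i w => simp [cf_one]⟩
  obtain ⟨V, -, hV, hr, hm⟩ := formula_subspace τ ι hι φ _ 1 h1
    (Submodule.mem_sup_right (Submodule.mem_span_singleton_self _))
  rw [mul_one] at hm
  by_contra hcon
  push Not at hcon
  have := hV.fd
  have h0 := key τ c hc V (hV.theta c) hV.bd (s + 1) (by
    simp only [finrank_bot] at h2
    omega) _ hm (fun i hi => by
      rw [Theta_iter_eq]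
      have : (fun w => τ^[i] (ι (cf φ.poly w))) = fun w => ι (cf φ.poly w) := by
        funext w
        exact Function.iterate_fixed (hι _) i
      rw [this]
      exact hcon i hi)
  apply hφ
  apply cf_eq_zero
  funext w
  have := congrFun h0 w
  simpa using this

end Vale.Agent.P314
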