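import Mathlib
import Vale.Agent.P314.Key

/-! Non-summability of the fractions `1 / (1 - t ^ j X)` under `X ↦ t ^ n X`. -/

namespace Vale.Agent.P314

open Polynomial

variable {L : Type*} [Field L]

theorem scale_injective (q : L) (hq : q ≠ 0) :
    Function.Injective (fun P : L[X] => P.comp (C q * X)) := by
  intro P Q h
  have h2 := congrArg (fun P : L[X] => P.comp (C q⁻¹ * X)) h
  simp only [Polynomial.comp_assoc, mul_comp, C_comp, X_comp] at h2
  rw [← mul_assoc, ← C_mul, mul_inv_cancel₀ hq, C_1, one_mul, comp_X, comp_X] at h2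
  exact h2

/-- The field of rational functions. -/
abbrev KK (L : Type*) [Field L] : Type _ := FractionRing L[X]

theorem scaleHom_injective (q : L) (hq : q ≠ 0) :
    Function.Injective ((algebraMap L[X] (KK L)).comp (compRingHom (C q * X))) := by
  intro P Q h
  simp only [RingHom.comp_apply, coe_compRingHom_apply] at h
  exact scale_injective q hq (IsFractionRing.injective L[X] (KK L) h)

/-- The substitution `X ↦ q X` on rational functions. -/
noncomputable def tau (q : L) (hq : q ≠ 0) : KK L →+* KK L :=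
  IsFractionRing.lift (scaleHom_injective q hq)

theorem tau_algebraMap (q : L) (hq : q ≠ 0) (P : L[X]) :
    tau q hq (algebraMap L[X] (KK L) P) = algebraMap L[X] (KK L) (P.comp (C q * X)) := by
  simp [tau]

/-- Regularity of a rational function at a point. -/
def Reg (p : L) (ρ : KK L) : Prop :=
  ∃ P Q : L[X], Q.eval p ≠ 0 ∧ ρ * algebraMap L[X] (KK L) Q = algebraMap L[X] (KK L) P

theorem Reg.add {p : L} {ρ σ : KK L} (h1 : Reg p ρ) (h2 : Reg p σ) : Reg p (ρ + σ) := by
  obtain ⟨P, Q, hQ, h⟩ := h1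
  obtain ⟨P', Q', hQ', h'⟩ := h2
  refine ⟨P * Q' + P' * Q, Q * Q', by simp [hQ, hQ'], ?_⟩
  simp only [map_add, map_mul, ← h, ← h']
  ring

theorem Reg.mul {p : L} {ρ σ : KK L} (h1 : Reg p ρ) (h2 : Reg p σ) : Reg p (ρ * σ) := by
  obtain ⟨P, Q, hQ, h⟩ := h1
  obtain ⟨P', Q', hQ', h'⟩ := h2
  refine ⟨P * P', Q * Q', by simp [hQ, hQ'], ?_⟩
  simp only [map_mul, ← h, ← h']
  ring

theorem Reg.neg {p : L} {ρ : KK L} (h1 : Reg p ρ) : Reg p (-ρ) := by
  obtain ⟨P, Q, hQ, h⟩ := h1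
  refine ⟨-P, Q, hQ, ?_⟩
  simp only [map_neg, ← h]
  ring

theorem Reg.sub {p : L} {ρ σ : KK L} (h1 : Reg p ρ) (h2 : Reg p σ) : Reg p (ρ - σ) := by
  rw [sub_eq_add_neg]
  exact h1.add h2.neg

theorem Reg.zero (p : L) : Reg p (0 : KK L) := ⟨0, 1, by simp, by simp⟩

theorem Reg.sum {p : L} {ι : Type*} (s : Finset ι) (f : ι → KK L) (h : ∀ i ∈ s, Reg p (f i)) :
    Reg p (∑ i ∈ s, f i) :=
  Finset.sum_induction f (Reg p) (fun _ _ => Reg.add) (Reg.zero p) h

theorem finite_not_reg (ρ : KK L) : {p : L | ¬ Reg p ρ}.Finite := by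
  classical
  obtain ⟨P, Q, hQ, rfl⟩ := IsFractionRing.div_surjective (A := L[X]) ρ
  have hQ0 : Q ≠ 0 := nonZeroDivisors.ne_zero hQ
  refine (Q.roots.toFinset.finite_toSet).subset fun p hp => ?_
  simp only [Finset.mem_coe, Multiset.mem_toFinset, mem_roots hQ0, IsRoot.def]
  by_contra hne
  apply hp
  refine ⟨P, Q, hne, ?_⟩
  have : algebraMap L[X] (KK L) Q ≠ 0 := by
    simpa using hQ0
  field_simp

theorem Reg.tau_of {q : L} (hq : q ≠ 0) {p : L} {ρ : KK L} (h : Reg (q * p) ρ) :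
    Reg p (tau q hq ρ) := by
  obtain ⟨P, Q, hQ, h⟩ := h
  refine ⟨P.comp (C q * X), Q.comp (C q * X), by simpa [eval_comp] using hQ, ?_⟩
  rw [← tau_algebraMap q hq, ← tau_algebraMap q hq, ← map_mul, h]

theorem Reg.of_tau {q : L} (hq : q ≠ 0) {p : L} {ρ : KK L} (h : Reg p (tau q hq ρ)) :
    Reg (q * p) ρ := by
  obtain ⟨P, Q, hQ, h⟩ := h
  have key : ∀ R : L[X], (R.comp (C q⁻¹ * X)).comp (C q * X) = R := by
    intro R
    simp only [Polynomial.comp_assoc, mul_comp, C_comp, X_comp]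
    rw [← mul_assoc, ← C_mul, inv_mul_cancel₀ hq, C_1, one_mul, comp_X]
  refine ⟨P.comp (C q⁻¹ * X), Q.comp (C q⁻¹ * X), ?_, ?_⟩
  · simpa [eval_comp, ← mul_assoc, inv_mul_cancel₀ hq] using hQ
  · apply (tau q hq).injective
    rw [map_mul, tau_algebraMap, tau_algebraMap, key, key, h]

theorem descend (P : ℕ → Prop) (hfin : {i | ¬ P i}.Finite) (h : ∀ i, P (i + 1) → P i) : P 0 := by
  obtain ⟨N, hN⟩ := hfin.exists_notMem
  simp only [Set.mem_ofPred_eq, not_not] at hN
  induction N with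
  | zero => exact hN
  | succ N ih => exact ih (h N hN)

theorem descend_reg (ρ : KK L) (u : ℕ → L) (hu : Function.Injective u)
    (h : ∀ i, Reg (u (i + 1)) ρ → Reg (u i) ρ) : Reg (u 0) ρ :=
  descend (fun i => Reg (u i) ρ) ((finite_not_reg ρ).preimage hu.injOn) h

/-- The fractions. -/
noncomputable def frac (g : L) : KK L := (algebraMap L[X] (KK L) (1 - C g * X))⁻¹

theorem one_sub_ne_zero (g : L) : (1 - C g * X : L[X]) ≠ 0 := by
  intro h
  have := congrArg (Polynomial.eval 0) h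
  simp at this

theorem alg_one_sub_ne_zero (g : L) : algebraMap L[X] (KK L) (1 - C g * X) ≠ 0 := by
  intro h
  exact one_sub_ne_zero g (IsFractionRing.injective L[X] (KK L) (h.trans (map_zero _).symm))

theorem reg_frac {g p : L} (h : g * p ≠ 1) : Reg p (frac g) := by
  refine ⟨1, 1 - C g * X, ?_, ?_⟩
  · simp only [eval_sub, eval_one, eval_mul, eval_C, eval_X]
    exact sub_ne_zero.mpr h.symm
  · rw [frac, inv_mul_cancel₀ (alg_one_sub_ne_zero g), map_one]

theorem not_reg_frac {g p : L} (h : g * p = 1) : ¬ Reg p (frac g) := by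
  rintro ⟨P, Q, hQ, h'⟩
  apply hQ
  have h2 : algebraMap L[X] (KK L) Q = algebraMap L[X] (KK L) ((1 - C g * X) * P) := by
    rw [map_mul, ← h', frac, ← mul_assoc, mul_inv_cancel₀ (alg_one_sub_ne_zero g), one_mul]
  rw [IsFractionRing.injective L[X] (KK L) h2]
  simp [h]

theorem tau_frac (q : L) (hq : q ≠ 0) (g : L) : tau q hq (frac g) = frac (g * q) := by
  rw [frac, map_inv₀, tau_algebraMap, frac]
  congr 2
  simp [mul_assoc]

theorem nonSummable (t : L) (ht : t ≠ 0) (hinj : Function.Injective (fun k : ℕ => t ^ k))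
    (n : ℕ) :
    NonSummable (tau (t ^ n) (pow_ne_zero n ht)) (fun j : Fin n => frac (t ^ (j : ℕ))) := by
  intro α ρ hα heq j
  have hn : 0 < n := Nat.pos_of_ne_zero fun h => by subst h; exact j.elim0
  set q : L := t ^ n with hqdef
  have hq : q ≠ 0 := pow_ne_zero n ht
  have hqinj : Function.Injective (fun i : ℕ => q ^ i) := by
    intro a b hab
    simp only [hqdef, ← pow_mul] at hab
    exact Nat.eq_of_mul_eq_mul_left hn (hinj hab)
  have hinv : ∀ β : KK L, tau q hq β = β → ∀ p : L, p ≠ 0 → Reg p β := by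
    intro β hβ p hp
    have := descend_reg β (fun i => q ^ i * p)
      (fun a b hab => hqinj (mul_right_cancel₀ hp hab)) (fun i hi => by
        rw [← hβ]
        refine Reg.tau_of hq ?_
        rw [← mul_assoc, ← pow_succ']
        exact hi)
    simpa using this
  have hβ : ∀ p : L, p ≠ 0 → (∀ j' : Fin n, t ^ (j' : ℕ) * p ≠ 1) →
      Reg p (∑ j', α j' * frac (t ^ (j' : ℕ))) := fun p hp h =>
    Reg.sum _ _ fun j' _ => (hinv _ (hα j') p hp).mul (reg_frac (h j'))
  set p0 : L := (t ^ (j : ℕ))⁻¹ with hp0def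
  have hp0 : p0 ≠ 0 := inv_ne_zero (pow_ne_zero _ ht)
  have h1 : Reg (q ^ (0 + 1) * p0) ρ := by
    refine descend_reg ρ (fun i => q ^ (i + 1) * p0)
      (fun a b hab => by simpa using hqinj (mul_right_cancel₀ hp0 hab)) (fun i hi => ?_)
    have e : ρ = tau q hq ρ + ∑ j', α j' * frac (t ^ (j' : ℕ)) := by
      rw [← heq]; ring
    rw [e]
    refine Reg.add (Reg.tau_of hq ?_) (hβ _ (mul_ne_zero (pow_ne_zero _ hq) hp0) fun j' h => ?_)
    · rw [← mul_assoc, ← pow_succ']
      exact hi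
    · have h2 : t ^ ((j' : ℕ) + n * (i + 1)) = t ^ (j : ℕ) := by
        rw [pow_add, pow_mul, ← hqdef]
        rw [← mul_assoc, hp0def, mul_inv_eq_one₀ (pow_ne_zero _ ht)] at h
        exact h
      have h3 := hinj h2
      have := j.2
      nlinarith
  have h2 : Reg ((q ^ 0)⁻¹ * p0) ρ := by
    refine descend_reg ρ (fun i => (q ^ i)⁻¹ * p0)
      (fun a b hab => hqinj (inv_injective (mul_right_cancel₀ hp0 hab))) (fun i hi => ?_)
    have e : tau q hq ρ = ρ - ∑ j', α j' * frac (t ^ (j' : ℕ)) := by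
      rw [← heq]; ring
    have e2 : (q ^ i)⁻¹ * p0 = q * ((q ^ (i + 1))⁻¹ * p0) := by
      field_simp
      ring
    rw [e2]
    refine Reg.of_tau hq ?_
    rw [e]
    refine Reg.sub hi (hβ _ (mul_ne_zero (inv_ne_zero (pow_ne_zero _ hq)) hp0) fun j' h => ?_)
    have h2 : t ^ (j' : ℕ) = t ^ ((j : ℕ) + n * (i + 1)) := by
      rw [pow_add, pow_mul, ← hqdef]
      rw [hp0def, ← mul_inv, mul_inv_eq_one₀ (mul_ne_zero (pow_ne_zero _ hq) (pow_ne_zero _ ht))]
        at h
      rw [h, mul_comm]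
    have h3 := hinj h2
    have := j'.2
    nlinarith
  simp only [zero_add, pow_one, pow_zero, inv_one, one_mul] at h1 h2
  have h3 : Reg p0 (∑ j', α j' * frac (t ^ (j' : ℕ))) := by
    rw [← heq]
    exact h2.sub (Reg.tau_of hq h1)
  have h4 : Reg p0 (∑ j' ∈ Finset.univ.erase j, α j' * frac (t ^ (j' : ℕ))) := by
    refine Reg.sum _ _ fun j' hj' => (hinv _ (hα j') p0 hp0).mul (reg_frac fun h => ?_)
    rw [hp0def, mul_inv_eq_one₀ (pow_ne_zero _ ht)] at h
    exact (Finset.mem_erase.mp hj').1 (Fin.ext (hinj h))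
  have h5 : Reg p0 (α j * frac (t ^ (j : ℕ))) := by
    have := h3.sub h4
    rwa [← Finset.add_sum_erase _ _ (Finset.mem_univ j), add_sub_cancel_right] at this
  by_contra hne
  have h6 : Reg p0 ((α j)⁻¹ * (α j * frac (t ^ (j : ℕ)))) :=
    (hinv _ (by rw [map_inv₀, hα j]) p0 hp0).mul h5
  rw [← mul_assoc, inv_mul_cancel₀ hne, one_mul] at h6
  exact not_reg_frac (mul_inv_cancel₀ (pow_ne_zero _ ht)) h6

end Vale.Agent.P314
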