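import Mathlib
import Vale.Agent.P314.Coef
import Vale.Agent.P314.NonSum

/-! The explicit zero-one matrices form a hitting set. -/

namespace Vale.Agent.P314

open Finset Polynomial

/-- The truncation order. -/
def ordM (n s : ℕ) : ℕ := n * (s + 1) * (n * (s + 1) + n * (s + 1) + 1) + 1

/-- The test deciding an entry. -/
def entTest (n b j k r a r' : ℕ) : Prop := a < k ∧ r' ≤ r ∧ (b + 1 + j + n * a) ∣ (r - r')

instance (n b j k r a r' : ℕ) : Decidable (entTest n b j k r a r') := by
  unfold entTest; infer_instance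

/-- The matrices. -/
def mat (F : Type) [Field F] (n s b : ℕ) (j : Fin n) :
    Matrix (Fin ((s + 1) * ordM n s)) (Fin ((s + 1) * ordM n s)) F :=
  fun ρ κ => if entTest n b j (ρ / ordM n s) (ρ % ordM n s) (κ / ordM n s) (κ % ordM n s)
    then 1 else 0

/-- The hitting set. -/
def hset (F : Type) [Field F] (n s : ℕ) : List (Point F n) :=
  (List.range (n * (s + 1) + 1)).map fun b => ⟨(s + 1) * ordM n s, mat F n s b⟩

variable {n : ℕ} {F : Type} [Field F]

/-- The geometric series in `z ^ e`. -/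
noncomputable def geo (F : Type) [Field F] (e : ℕ) : PowerSeries F :=
  PowerSeries.mk fun i => if e ∣ i then 1 else 0

theorem geo_mul (e : ℕ) (he : 0 < e) : (1 - PowerSeries.X ^ e) * geo F e = 1 := by
  ext i
  rw [sub_mul, one_mul, map_sub, PowerSeries.coeff_X_pow_mul', PowerSeries.coeff_one]
  simp only [geo, PowerSeries.coeff_mk]
  by_cases h : e ≤ i
  · have h0 : i ≠ 0 := by omega
    have : e ∣ i - e ↔ e ∣ i := (Nat.dvd_sub_iff_left h dvd_rfl)
    simp [h, h0, this]
  · by_cases h0 : i = 0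
    · subst h0
      simp [h]
    · have : ¬ e ∣ i := fun hd => h (Nat.le_of_dvd (Nat.pos_of_ne_zero h0) hd)
      simp [h, h0, this]

theorem exists_poly_ne_zero (φ : Formula F n) (s : ℕ) (hs : φ.size ≤ s) (hφ : φ.poly ≠ 0) :
    ∃ k < s + 1, HF (R := F[X][X])
      (fun a => ∏ j : Fin n, (1 - C (X ^ ((j : ℕ) + n * a)) * X))
      (fun j a => ∏ j' ∈ univ.erase j, (1 - C (X ^ ((j' : ℕ) + n * a)) * X)) k
      (fun w => C (C (cf φ.poly w))) ≠ 0 := by
  let L := FractionRing F[X]
  let t : L := algebraMap F[X] L X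
  have hinjL := IsFractionRing.injective F[X] L
  have ht : t ≠ 0 := fun h => X_ne_zero (hinjL (h.trans (map_zero _).symm))
  have hinj : Function.Injective (fun k : ℕ => t ^ k) := by
    intro a b hab
    simp only [t, ← map_pow] at hab
    have := congrArg natDegree (hinjL hab)
    simpa using this
  let ψ : F[X][X] →+* KK L := (algebraMap L[X] (KK L)).comp (mapRingHom (algebraMap F[X] L))
  let ι : F →+* KK L := ψ.comp (C.comp C)
  have hι : ∀ a, tau (t ^ n) (pow_ne_zero n ht) (ι a) = ι a := by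
    intro a
    simp [ι, ψ, tau_algebraMap]
  obtain ⟨k, hk, h⟩ := formula_test _ ι hι _ (nonSummable t ht hinj n) φ s hs hφ
  refine ⟨k, hk, fun h0 => h ?_⟩
  have hiter : ∀ (j a : ℕ), (tau (t ^ n) (pow_ne_zero n ht))^[a] (frac (t ^ j)) =
      frac (t ^ (j + n * a)) := by
    intro j a
    induction a with
    | zero => simp
    | succ a ih =>
      rw [Function.iterate_succ_apply', ih, tau_frac, ← pow_add]
      congr 2
      ring
  have hψ : ∀ e : ℕ, ψ (1 - C (X ^ e) * X) = algebraMap L[X] (KK L) (1 - C (t ^ e) * X) := by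
    intro e
    simp [ψ, t]
  have h1 := congrArg ψ h0
  rw [HF_map, map_zero, HF_scale _ (fun j a => frac (t ^ ((j : ℕ) + n * a)))] at h1
  · simp only [hiter]
    refine (mul_eq_zero.mp h1).resolve_left ?_
    refine Finset.prod_ne_zero_iff.mpr fun a _ => ?_
    rw [map_prod]
    refine Finset.prod_ne_zero_iff.mpr fun j _ => ?_
    rw [hψ]
    exact alg_one_sub_ne_zero _
  · intro j a
    rw [← Finset.mul_prod_erase univ _ (mem_univ j), map_mul, hψ, frac, mul_right_comm,
      mul_inv_cancel₀ (alg_one_sub_ne_zero _), one_mul]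

theorem natDegree_one_sub_le {R : Type*} [CommRing R] (u : R) :
    (1 - C u * X : R[X]).natDegree ≤ 1 := by
  compute_degree

theorem natDegree_one_sub_pow_le (e : ℕ) : (1 - X ^ e : F[X]).natDegree ≤ e := by
  compute_degree

theorem exists_coeff_ne_zero (φ : Formula F n) (s : ℕ) (hs : φ.size ≤ s) (hφ : φ.poly ≠ 0) :
    ∃ b < n * (s + 1) + 1, ∃ k < s + 1, ∃ r < ordM n s,
      PowerSeries.coeff r (HF (fun _ => 1) (fun (j : Fin n) a => geo F (b + 1 + j + n * a)) k
        (fun w => PowerSeries.C (cf φ.poly w))) ≠ 0 := by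
  obtain ⟨k, hk, h⟩ := exists_poly_ne_zero φ s hs hφ
  set PA := HF (R := F[X][X])
      (fun a => ∏ j : Fin n, (1 - C (X ^ ((j : ℕ) + n * a)) * X))
      (fun j a => ∏ j' ∈ univ.erase j, (1 - C (X ^ ((j' : ℕ) + n * a)) * X)) k
      (fun w => C (C (cf φ.poly w))) with hPA
  have hdeg : PA.natDegree ≤ k * n := by
    refine HF_natDegree _ _ n k (fun a _ => ?_) (fun j a _ => ?_) _ (fun w => natDegree_C _)
    · refine (natDegree_prod_le _ _).trans ?_
      refine (Finset.sum_le_card_nsmul _ _ 1 fun j _ => natDegree_one_sub_le _).trans ?_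
      simp
    · refine (natDegree_prod_le _ _).trans ?_
      refine (Finset.sum_le_card_nsmul _ _ 1 fun j _ => natDegree_one_sub_le _).trans ?_
      simp
  have hb : ∃ b : Fin (n * (s + 1) + 1), PA.eval (X ^ ((b : ℕ) + 1)) ≠ 0 := by
    by_contra hcon
    push Not at hcon
    refine h (eq_zero_of_natDegree_lt_card_of_eval_eq_zero PA (f := fun b : Fin (n * (s + 1) + 1) =>
      (X ^ ((b : ℕ) + 1) : F[X])) ?_ hcon ?_)
    · intro a b hab
      have := congrArg natDegree hab
      simp only [natDegree_X_pow] at this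
      exact Fin.ext (by omega)
    · rw [Fintype.card_fin]
      nlinarith
  obtain ⟨⟨b, hb⟩, hPB⟩ := hb
  refine ⟨b, hb, k, hk, ?_⟩
  by_contra hcon
  push Not at hcon
  apply hPB
  have e1 : PA.eval (X ^ (b + 1)) = HF (R := F[X])
      (fun a => ∏ j : Fin n, (1 - X ^ (b + 1 + j + n * a)))
      (fun j a => ∏ j' ∈ univ.erase j, (1 - X ^ (b + 1 + j' + n * a))) k
      (fun w => C (cf φ.poly w)) := by
    have hev : ∀ e : ℕ, (evalRingHom (X ^ (b + 1) : F[X])) (1 - C (X ^ e) * X) =
        1 - X ^ (b + 1 + e) := by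
      intro e
      simp only [coe_evalRingHom, eval_sub, eval_one, eval_mul, eval_C, eval_X]
      ring
    have := HF_map (evalRingHom (X ^ (b + 1) : F[X]))
      (fun a => ∏ j : Fin n, (1 - C (X ^ ((j : ℕ) + n * a)) * X))
      (fun (j : Fin n) a => ∏ j' ∈ univ.erase j, (1 - C (X ^ ((j' : ℕ) + n * a)) * X)) k
      (fun w => C (C (cf φ.poly w)))
    simp only [map_prod, hev, ← add_assoc] at this
    simp only [coe_evalRingHom, eval_C] at this
    rw [hPA]
    exact this
  simp only []
  rw [e1]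
  set PB := HF (R := F[X])
      (fun a => ∏ j : Fin n, (1 - X ^ (b + 1 + j + n * a)))
      (fun j a => ∏ j' ∈ univ.erase j, (1 - X ^ (b + 1 + j' + n * a))) k
      (fun w => C (cf φ.poly w)) with hPBdef
  have hexp : ∀ (j : Fin n) a, a < k → b + 1 + j + n * a ≤ n * (s + 1) + n * (s + 1) + 1 := by
    intro j a ha
    have := j.2
    nlinarith
  have hdegB : PB.natDegree ≤ k * (n * (n * (s + 1) + n * (s + 1) + 1)) := by
    refine HF_natDegree _ _ _ k (fun a ha => ?_) (fun j a ha => ?_) _ (fun w => natDegree_C _)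
    · refine (natDegree_prod_le _ _).trans ?_
      refine (Finset.sum_le_card_nsmul _ _ _ fun j _ =>
        (natDegree_one_sub_pow_le _).trans (hexp j a ha)).trans ?_
      simp
    · refine (natDegree_prod_le _ _).trans ?_
      refine (Finset.sum_le_card_nsmul _ _ _ fun j _ =>
        (natDegree_one_sub_pow_le _).trans (hexp j a ha)).trans ?_
      rw [smul_eq_mul]
      refine Nat.mul_le_mul_right _ ?_
      simp
  have hdegM : PB.natDegree < ordM n s := by
    unfold ordM
    refine Nat.lt_succ_of_le (hdegB.trans ?_)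
    rw [← mul_assoc]
    refine Nat.mul_le_mul_right _ ?_
    nlinarith
  have e2 : (PB : PowerSeries F) =
      (∏ a ∈ range k, ∏ j : Fin n, (1 - PowerSeries.X ^ (b + 1 + j + n * a))) *
        HF (fun _ => 1) (fun (j : Fin n) a => geo F (b + 1 + j + n * a)) k
        (fun w => PowerSeries.C (cf φ.poly w)) := by
    have := HF_map (coeToPowerSeries.ringHom (R := F))
      (fun a => ∏ j : Fin n, (1 - X ^ (b + 1 + j + n * a)))
      (fun (j : Fin n) a => ∏ j' ∈ univ.erase j, (1 - X ^ (b + 1 + j' + n * a))) k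
      (fun w => C (cf φ.poly w))
    simp only [map_prod, map_sub, map_one, map_pow, coeToPowerSeries.ringHom_apply, coe_X,
      coe_C] at this
    rw [hPBdef, this, HF_scale _ (fun (j : Fin n) a => geo F (b + 1 + j + n * a))]
    intro j a
    rw [← Finset.mul_prod_erase univ _ (mem_univ j), mul_right_comm, geo_mul _ (by omega), one_mul]
  have hdvd : (PowerSeries.X : PowerSeries F) ^ ordM n s ∣ (PB : PowerSeries F) := by
    rw [e2]
    exact Dvd.dvd.mul_left (PowerSeries.X_pow_dvd_iff.mpr hcon) _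
  rw [PowerSeries.X_pow_dvd_iff] at hdvd
  ext r
  by_cases hr : r < ordM n s
  · have := hdvd r hr
    rwa [coeff_coe] at this
  · exact coeff_eq_zero_of_natDegree_lt (by omega)

/-- The vector of truncated test values. -/
noncomputable def tvec (n s b : ℕ) (g : FreeAlgebra F (Fin n)) :
    Fin ((s + 1) * ordM n s) → F :=
  fun ρ => PowerSeries.coeff (ρ % ordM n s)
    (HF (fun _ => 1) (fun (j : Fin n) a => geo F (b + 1 + j + n * a)) (ρ / ordM n s)
      (fun w => PowerSeries.C (cf g w)))

theorem ordM_pos (n s : ℕ) : 0 < ordM n s := Nat.succ_pos _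

theorem sum_fin_mul {β : Type*} [AddCommMonoid β] (m M : ℕ) (hM : 0 < M) (f : ℕ → ℕ → β) :
    ∑ κ : Fin (m * M), f (κ / M) (κ % M) = ∑ a ∈ range m, ∑ r ∈ range M, f a r := by
  rw [Fin.sum_univ_eq_sum_range (fun κ => f (κ / M) (κ % M)) (m * M)]
  induction m with
  | zero => simp
  | succ m ih =>
    rw [Nat.succ_mul, Finset.sum_range_add, ih, Finset.sum_range_succ]
    congr 1
    refine Finset.sum_congr rfl fun r hr => ?_
    have hr := Finset.mem_range.mp hr
    rw [mul_comm, Nat.mul_add_div hM, Nat.mul_add_mod, Nat.div_eq_of_lt hr, Nat.mod_eq_of_lt hr,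
      add_zero]

theorem tvec_ι_mul (s b : ℕ) (j : Fin n) (g : FreeAlgebra F (Fin n)) :
    tvec n s b (FreeAlgebra.ι F j * g) = (mat F n s b j).mulVec (tvec n s b g) := by
  funext ρ
  have e : (fun w => PowerSeries.C (cf (FreeAlgebra.ι F j * g) w)) =
      lmul j (fun w => PowerSeries.C (cf g w)) := by
    funext w
    rw [cf_ι_mul]
    cases w with
    | nil => simp [lmul]
    | cons i w => by_cases h : i = j <;> simp [lmul, h]
  have hM := ordM_pos n s
  have hk : (ρ : ℕ) / ordM n s < s + 1 := by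
    rw [Nat.div_lt_iff_lt_mul hM]
    exact ρ.2
  have hr : (ρ : ℕ) % ordM n s < ordM n s := Nat.mod_lt _ hM
  simp only [tvec, Matrix.mulVec, dotProduct, mat]
  rw [e, HF_lmul]
  generalize (ρ : ℕ) / ordM n s = k at hk ⊢
  generalize (ρ : ℕ) % ordM n s = r at hr ⊢
  rw [sum_fin_mul (s + 1) (ordM n s) hM (fun a r' =>
    (if entTest n b j k r a r' then (1 : F) else 0) * PowerSeries.coeff r'
      (HF (fun _ => 1) (fun (j : Fin n) a => geo F (b + 1 + j + n * a)) a
      (fun w => PowerSeries.C (cf g w))))]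
  rw [map_sum]
  symm
  rw [← Finset.sum_subset (Finset.range_subset_range.mpr hk.le)]
  · refine Finset.sum_congr rfl fun a ha => ?_
    have ha := Finset.mem_range.mp ha
    rw [mul_comm, PowerSeries.coeff_mul, Finset.Nat.sum_antidiagonal_eq_sum_range_succ_mk]
    rw [← Finset.sum_subset (Finset.range_subset_range.mpr (Nat.succ_le_of_lt hr))]
    · refine Finset.sum_congr rfl fun r' hr' => ?_
      have hr' := Finset.mem_range.mp hr'
      simp only [geo, PowerSeries.coeff_mk, entTest, ha, true_and, Nat.le_of_lt_succ hr']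
      rw [mul_comm]
    · intro r' _ hr'
      have : ¬ r' ≤ r := fun h => hr' (Finset.mem_range.mpr (Nat.lt_succ_of_le h))
      simp [entTest, this]
  · intro a _ ha
    have : ¬ a < k := fun h => ha (Finset.mem_range.mpr h)
    simp [entTest, this]

theorem tvec_add (s b : ℕ) (f g : FreeAlgebra F (Fin n)) :
    tvec n s b (f + g) = tvec n s b f + tvec n s b g := by
  funext ρ
  have e : (fun w => PowerSeries.C (cf (f + g) w)) =
      (fun w => PowerSeries.C (cf f w)) + (fun w => PowerSeries.C (cf g w)) := by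
    funext w
    simp [cf_add]
  simp only [tvec, e, HF_add, map_add, Pi.add_apply]

theorem tvec_smul (s b : ℕ) (a : F) (g : FreeAlgebra F (Fin n)) :
    tvec n s b (a • g) = a • tvec n s b g := by
  funext ρ
  have e : (fun w => PowerSeries.C (cf (a • g) w)) =
      PowerSeries.C a • (fun w => PowerSeries.C (cf g w)) := by
    funext w
    simp [cf_smul]
  simp only [tvec, e, HF_smul, PowerSeries.coeff_C_mul, Pi.smul_apply, smul_eq_mul]

theorem tvec_mul (s b : ℕ) (f g : FreeAlgebra F (Fin n)) :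
    tvec n s b (f * g) = (FreeAlgebra.lift F (mat F n s b) f).mulVec (tvec n s b g) := by
  induction f using FreeAlgebra.induction generalizing g with
  | grade0 a =>
    rw [← Algebra.smul_def, tvec_smul, AlgHom.commutes, Algebra.algebraMap_eq_smul_one,
      Matrix.smul_mulVec, Matrix.one_mulVec]
  | grade1 j => rw [FreeAlgebra.lift_ι_apply, tvec_ι_mul]
  | mul a c iha ihc => rw [mul_assoc, iha, ihc, map_mul, Matrix.mulVec_mulVec]
  | add a c iha ihc => rw [add_mul a c g, tvec_add, iha, ihc, map_add, Matrix.add_mulVec]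

theorem hset_hitting (n s : ℕ) : IsHittingSet s (hset F n s) := by
  intro φ hs hφ
  obtain ⟨b, hb, k, hk, r, hr, h⟩ := exists_coeff_ne_zero φ s hs hφ
  refine ⟨⟨(s + 1) * ordM n s, mat F n s b⟩, ?_, fun h0 => h ?_⟩
  · exact List.mem_map.mpr ⟨b, List.mem_range.mpr hb, rfl⟩
  · have h1 := tvec_mul s b φ.poly 1
    simp only [] at h0
    rw [mul_one, h0, Matrix.zero_mulVec] at h1
    have hM := ordM_pos n s
    have h2 := congrFun h1 ⟨ordM n s * k + r, by nlinarith⟩
    simp only [tvec, Pi.zero_apply] at h2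
    rwa [Nat.mul_add_div hM, Nat.mul_add_mod, Nat.div_eq_of_lt hr, Nat.mod_eq_of_lt hr,
      add_zero] at h2

end Vale.Agent.P314
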