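import Mathlib

/-! A small loop language with a verified translation to Mathlib's stack machines. -/

namespace Vale.Agent.P314

open Computability Turing Turing.TM2 Function

/-- Loop programs over a type of registers. -/
inductive Prog (K : Type) : Type
  | skip : Prog K
  | inc : K → Prog K
  | dec : K → Prog K
  | emit : Γ' → Prog K
  | read : K → Prog K
  | seq : Prog K → Prog K → Prog K
  | ifz : K → Prog K → Prog K → Prog K
  | rep : K → Prog K → Prog K

/-- States. -/
@[ext] structure St (K : Type) : Type where
  reg : K → ℕ
  inp : List Γ'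
  out : List Γ'

variable {K : Type} [DecidableEq K]

/-- Number of leading ones. -/
def ones : List Γ' → ℕ
  | [] => 0
  | c :: l => if c = Γ'.bit true then ones l + 1 else 0

/-- The rest of the input after the leading ones and one more symbol. -/
def rest : List Γ' → List Γ'
  | [] => []
  | c :: l => if c = Γ'.bit true then rest l else l

/-- Semantics. -/
def den : Prog K → St K → St K
  | .skip, st => st
  | .inc k, st => { st with reg := update st.reg k (st.reg k + 1) }
  | .dec k, st => { st with reg := update st.reg k (st.reg k - 1) }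
  | .emit c, st => { st with out := c :: st.out }
  | .read k, st => { st with reg := update st.reg k (st.reg k + ones st.inp), inp := rest st.inp }
  | .seq p q, st => den q (den p st)
  | .ifz k p q, st => if st.reg k = 0 then den p st else den q st
  | .rep k p, st => (den p)^[st.reg k] st

/-- Exact running time of the translated program. -/
def cost : Prog K → St K → ℕ
  | .skip, _ => 1
  | .inc _, _ => 1
  | .dec _, _ => 1
  | .emit _, _ => 1
  | .read _, st => ones st.inp + 1
  | .seq p q, st => cost p st + cost q (den p st)
  | .ifz k p q, st => 1 + if st.reg k = 0 then cost p st else cost q st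
  | .rep k p, st => 1 + (st.reg k + 1) + (st.reg k + 1) +
      (∑ i ∈ Finset.range (st.reg k), (1 + cost p ((den p)^[i] st)) + 1)

/-- Labels. -/
def Lab : Prog K → Type
  | .seq p q => Lab p ⊕ Lab q
  | .ifz _ p q => Option (Lab p ⊕ Lab q)
  | .rep _ p => Fin 4 ⊕ Lab p
  | _ => Unit

/-- Finiteness of labels. -/
@[reducible] def labFin : (p : Prog K) → Fintype (Lab p)
  | .skip => inferInstanceAs (Fintype Unit)
  | .inc _ => inferInstanceAs (Fintype Unit)
  | .dec _ => inferInstanceAs (Fintype Unit)
  | .emit _ => inferInstanceAs (Fintype Unit)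
  | .read _ => inferInstanceAs (Fintype Unit)
  | .seq p q =>
    letI := labFin p; letI := labFin q; inferInstanceAs (Fintype (Lab p ⊕ Lab q))
  | .ifz _ p q =>
    letI := labFin p; letI := labFin q; inferInstanceAs (Fintype (Option (Lab p ⊕ Lab q)))
  | .rep _ p => letI := labFin p; inferInstanceAs (Fintype (Fin 4 ⊕ Lab p))

/-- Entry label. -/
def start : (p : Prog K) → Lab p
  | .skip => ()
  | .inc _ => ()
  | .dec _ => ()
  | .emit _ => ()
  | .read _ => ()
  | .seq p _ => Sum.inl (start p)
  | .ifz _ _ _ => none
  | .rep _ _ => Sum.inl 0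

/-- Stack names. -/
abbrev SK (K : Type) : Type := K ⊕ Fin 4

/-- Statements. -/
abbrev Stm (K Λ : Type) : Type := Stmt (fun _ : SK K => Γ') Λ (Option Γ')

/-- Reset and jump. -/
def jmp {Λ : Type} (l : Λ) : Stm K Λ := .load (fun _ => none) (.goto fun _ => l)

/-- The translation. -/
def code {Λ : Type} : (p : Prog K) → (Lab p → Λ) → Λ → Lab p → Stm K Λ
  | .skip, _, e, _ => jmp e
  | .inc k, _, e, _ => .push (.inl k) (fun _ => Γ'.blank) (jmp e)
  | .dec k, _, e, _ => .pop (.inl k) (fun _ o => o) (jmp e)
  | .emit c, _, e, _ => .push (.inr 1) (fun _ => c) (jmp e)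
  | .read k, ι, e, _ => .pop (.inr 0) (fun _ o => o) (.branch (fun v => v = some (Γ'.bit true))
      (.push (.inl k) (fun _ => Γ'.blank) (jmp (ι ()))) (jmp e))
  | .seq p q, ι, _, .inl x => code p (fun y => ι (.inl y)) (ι (.inr (start q))) x
  | .seq _ q, ι, e, .inr x => code q (fun y => ι (.inr y)) e x
  | .ifz k p q, ι, _, none => .peek (.inl k) (fun _ o => o) (.branch (fun v => v = none)
      (jmp (ι (some (.inl (start p))))) (jmp (ι (some (.inr (start q))))))
  | .ifz _ p _, ι, e, some (.inl x) => code p (fun y => ι (some (.inl y))) e x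
  | .ifz _ _ q, ι, e, some (.inr x) => code q (fun y => ι (some (.inr y))) e x
  | .rep k p, ι, e, .inl i =>
      if i = 0 then .push (.inr 2) (fun _ => Γ'.comma) (jmp (ι (.inl 1)))
      else if i = 1 then .pop (.inl k) (fun _ o => o) (.branch (fun v => v = none)
        (jmp (ι (.inl 2)))
        (.push (.inr 3) (fun _ => Γ'.blank) (.push (.inr 2) (fun _ => Γ'.blank)
          (jmp (ι (.inl 1))))))
      else if i = 2 then .pop (.inr 3) (fun _ o => o) (.branch (fun v => v = none)
        (jmp (ι (.inl 3))) (.push (.inl k) (fun _ => Γ'.blank) (jmp (ι (.inl 2)))))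
      else .pop (.inr 2) (fun _ o => o) (.branch (fun v => v = some Γ'.blank)
        (jmp (ι (.inr (start p)))) (jmp e))
  | .rep _ p, ι, _, .inr x => code p (fun y => ι (.inr y)) (ι (.inl 3)) x

/-- Stack contents. -/
def stk (st : St K) (L T : List Γ') : SK K → List Γ'
  | .inl k => List.replicate (st.reg k) Γ'.blank
  | .inr i => if i = 0 then st.inp else if i = 1 then st.out else if i = 2 then L else T

/-- Configurations. -/
def cfg {Λ : Type} (l : Λ) (st : St K) (L T : List Γ') :
    Cfg (fun _ : SK K => Γ') Λ (Option Γ') := ⟨some l, none, stk st L T⟩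

omit [DecidableEq K] in
@[simp] theorem stk_reg (st : St K) (L T : List Γ') (k : K) :
    stk st L T (.inl k) = List.replicate (st.reg k) Γ'.blank := rfl
omit [DecidableEq K] in
@[simp] theorem stk_0 (st : St K) (L T : List Γ') : stk st L T (.inr 0) = st.inp := rfl
omit [DecidableEq K] in
@[simp] theorem stk_1 (st : St K) (L T : List Γ') : stk st L T (.inr 1) = st.out := rfl
omit [DecidableEq K] in
@[simp] theorem stk_2 (st : St K) (L T : List Γ') : stk st L T (.inr 2) = L := rfl
omit [DecidableEq K] in
@[simp] theorem stk_3 (st : St K) (L T : List Γ') : stk st L T (.inr 3) = T := rfl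

theorem upd_reg (st : St K) (L T : List Γ') (k : K) (x : ℕ) :
    update (stk st L T) (.inl k) (List.replicate x Γ'.blank) =
      stk { st with reg := update st.reg k x } L T := by
  funext s
  rcases s with k' | i
  · by_cases h : k' = k
    · subst h; simp
    · simp [update_of_ne, h]
  · rw [update_of_ne (by simp)]; rfl

theorem upd_0 (st : St K) (L T l : List Γ') :
    update (stk st L T) (.inr 0) l = stk { st with inp := l } L T := by
  funext s
  rcases s with k' | i
  · rw [update_of_ne (by simp)]; rfl
  · fin_cases i <;> simp [stk]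

theorem upd_1 (st : St K) (L T l : List Γ') :
    update (stk st L T) (.inr 1) l = stk { st with out := l } L T := by
  funext s
  rcases s with k' | i
  · rw [update_of_ne (by simp)]; rfl
  · fin_cases i <;> simp [stk]

theorem upd_2 (st : St K) (L T l : List Γ') :
    update (stk st L T) (.inr 2) l = stk st l T := by
  funext s
  rcases s with k' | i
  · rw [update_of_ne (by simp)]; rfl
  · fin_cases i <;> simp [stk]

theorem upd_3 (st : St K) (L T l : List Γ') :
    update (stk st L T) (.inr 3) l = stk st L l := by
  funext s
  rcases s with k' | i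
  · rw [update_of_ne (by simp)]; rfl
  · fin_cases i <;> simp [stk]

section Steps

variable {Λ : Type} (m : Λ → Stm K Λ)

/-- Exact reachability in `t` steps. -/
def Steps (c c' : Cfg (fun _ : SK K => Γ') Λ (Option Γ')) (t : ℕ) : Prop :=
  (flip bind (step m))^[t] (some c) = some c'

variable {m}

theorem Steps.refl (c : Cfg (fun _ : SK K => Γ') Λ (Option Γ')) : Steps m c c 0 := rfl

theorem Steps.trans {c c' c'' : Cfg (fun _ : SK K => Γ') Λ (Option Γ')} {t t' : ℕ}
    (h : Steps m c c' t) (h' : Steps m c' c'' t') : Steps m c c'' (t + t') := by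
  unfold Steps at *
  rw [add_comm, iterate_add_apply, h, h']

theorem Steps.one {l : Λ} {st : St K} {L T : List Γ'} {c' : Cfg (fun _ : SK K => Γ') Λ (Option Γ')}
    (h : stepAux (m l) none (stk st L T) = c') : Steps m (cfg l st L T) c' 1 := by
  unfold Steps
  rw [← h]
  rfl

theorem Steps.cast {c c' : Cfg (fun _ : SK K => Γ') Λ (Option Γ')} {t t' : ℕ}
    (h : Steps m c c' t) (e : t = t') : Steps m c c' t' := e ▸ h

omit [DecidableEq K] in
theorem st_eta (st : St K) : ({ st with reg := st.reg } : St K) = st := rfl

theorem steps_read (k : K) (l e : Λ)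
    (h : m l = .pop (.inr 0) (fun _ o => o) (.branch (fun v => v = some (Γ'.bit true))
      (.push (.inl k) (fun _ => Γ'.blank) (jmp l)) (jmp e))) (L T : List Γ') (st : St K) :
    Steps m (cfg l st L T) (cfg e (den (.read k) st) L T) (ones st.inp + 1) := by
  obtain ⟨reg, inp, out⟩ := st
  induction inp generalizing reg with
  | nil =>
    refine Steps.one ?_
    simp [h, jmp, upd_0, cfg, den, ones, rest]
  | cons c inp ih =>
    by_cases hc : c = Γ'.bit true
    · have h1 : Steps m (cfg l ⟨reg, c :: inp, out⟩ L T)
          (cfg l ⟨update reg k (reg k + 1), inp, out⟩ L T) 1 := by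
        refine Steps.one ?_
        simp [h, jmp, upd_0, cfg, hc, ← List.replicate_succ, upd_reg]
      have h2 := h1.trans (ih (update reg k (reg k + 1)))
      simp only [den, ones, rest, hc, if_true, update_self, update_idem] at h2 ⊢
      rw [show reg k + 1 + ones inp = reg k + (ones inp + 1) by ring] at h2
      exact h2.cast (by ring)
    · refine (Steps.one ?_).cast (by simp [ones, hc])
      simp [h, jmp, upd_0, cfg, den, ones, rest, hc]

theorem steps_copy1 (k : K) (l e : Λ)
    (h : m l = .pop (.inl k) (fun _ o => o) (.branch (fun v => v = none) (jmp e)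
        (.push (.inr 3) (fun _ => Γ'.blank) (.push (.inr 2) (fun _ => Γ'.blank) (jmp l)))))
    (x : ℕ) (st : St K) (L T : List Γ') (hx : st.reg k = x) :
    Steps m (cfg l st L T) (cfg e { st with reg := update st.reg k 0 }
      (List.replicate x Γ'.blank ++ L) (List.replicate x Γ'.blank ++ T)) (x + 1) := by
  induction x generalizing st L T with
  | zero =>
    refine Steps.one ?_
    have := upd_reg st L T k 0
    simp only [List.replicate_zero] at this
    simp [h, jmp, cfg, hx, this]
  | succ x ih =>
    have h1 : Steps m (cfg l st L T)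
        (cfg l { st with reg := update st.reg k x } (Γ'.blank :: L) (Γ'.blank :: T)) 1 := by
      refine Steps.one ?_
      simp [h, jmp, cfg, hx, List.replicate_succ, upd_reg, upd_2, upd_3]
    have h2 := h1.trans (ih { st with reg := update st.reg k x } _ _ (by simp))
    simp only [update_idem] at h2
    rw [List.replicate_succ', List.append_assoc, List.append_assoc]
    exact h2.cast (by ring)

theorem steps_copy2 (k : K) (l e : Λ)
    (h : m l = .pop (.inr 3) (fun _ o => o) (.branch (fun v => v = none)
        (jmp e) (.push (.inl k) (fun _ => Γ'.blank) (jmp l))))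
    (x : ℕ) (st : St K) (L : List Γ') :
    Steps m (cfg l st L (List.replicate x Γ'.blank))
      (cfg e { st with reg := update st.reg k (st.reg k + x) } L []) (x + 1) := by
  induction x generalizing st with
  | zero =>
    refine Steps.one ?_
    simp [h, jmp, cfg, upd_3]
  | succ x ih =>
    have h1 : Steps m (cfg l st L (List.replicate (x + 1) Γ'.blank))
        (cfg l { st with reg := update st.reg k (st.reg k + 1) } L
          (List.replicate x Γ'.blank)) 1 := by
      refine Steps.one ?_
      simp only [h, jmp, cfg, stepAux, stk_3, List.replicate_succ, List.head?_cons, List.tail_cons,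
        upd_3, stk_reg]
      simp [← List.replicate_succ, upd_reg]
    have h2 := h1.trans (ih { st with reg := update st.reg k (st.reg k + 1) })
    simp only [update_idem, update_self] at h2
    rw [show st.reg k + 1 + x = st.reg k + (x + 1) by ring] at h2
    exact h2.cast (by ring)

theorem steps_loop (f : St K → St K) (c : St K → ℕ) (l b e : Λ)
    (h : m l = .pop (.inr 2) (fun _ o => o) (.branch (fun v => v = some Γ'.blank)
        (jmp b) (jmp e)))
    (hb : ∀ st L, Steps m (cfg b st L []) (cfg l (f st) L []) (c st))
    (x : ℕ) (st : St K) (L : List Γ') :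
    Steps m (cfg l st (List.replicate x Γ'.blank ++ Γ'.comma :: L) [])
      (cfg e (f^[x] st) L []) (∑ i ∈ Finset.range x, (1 + c (f^[i] st)) + 1) := by
  induction x generalizing st with
  | zero =>
    refine Steps.one ?_
    simp [h, jmp, cfg, upd_2]
  | succ x ih =>
    have h1 : Steps m (cfg l st (List.replicate (x + 1) Γ'.blank ++ Γ'.comma :: L) [])
        (cfg b st (List.replicate x Γ'.blank ++ Γ'.comma :: L) []) 1 := by
      refine Steps.one ?_
      simp [h, jmp, cfg, List.replicate_succ, upd_2]
    have h2 := (h1.trans (hb st _)).trans (ih (f st))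
    rw [Finset.sum_range_succ']
    simp only [iterate_succ_apply, iterate_zero_apply]
    exact h2.cast (by ring)

theorem steps_code (p : Prog K) : ∀ (ι : Lab p → Λ) (e : Λ), (∀ x, m (ι x) = code p ι e x) →
    ∀ (st : St K) (L : List Γ'),
      Steps m (cfg (ι (start p)) st L []) (cfg e (den p st) L []) (cost p st) := by
  induction p with
  | skip =>
    intro ι e h st L
    refine Steps.one ?_
    simp [h, code, jmp, cfg, den]
  | inc k =>
    intro ι e h st L
    refine Steps.one ?_
    simp [h, code, jmp, cfg, den, ← List.replicate_succ, upd_reg]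
  | dec k =>
    intro ι e h st L
    refine Steps.one ?_
    simp [h, code, jmp, cfg, den, upd_reg]
  | emit c =>
    intro ι e h st L
    refine Steps.one ?_
    simp [h, code, jmp, cfg, den, upd_1]
  | read k =>
    intro ι e h st L
    exact steps_read k (ι ()) e (h ()) L [] st
  | seq p q ihp ihq =>
    intro ι e h st L
    exact (ihp (fun y => ι (.inl y)) _ (fun x => h (.inl x)) st L).trans
      (ihq (fun y => ι (.inr y)) e (fun x => h (.inr x)) _ L)
  | ifz k p q ihp ihq =>
    intro ι e h st L
    by_cases hk : st.reg k = 0
    · have h1 : Steps m (cfg (ι none) st L []) (cfg (ι (some (.inl (start p)))) st L []) 1 := by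
        refine Steps.one ?_
        simp [h none, code, jmp, cfg, hk]
      have h2 := h1.trans (ihp (fun y => ι (some (.inl y))) e (fun x => h (some (.inl x))) st L)
      simpa only [den, cost, hk, if_true, start] using h2
    · have h1 : Steps m (cfg (ι none) st L []) (cfg (ι (some (.inr (start q)))) st L []) 1 := by
        refine Steps.one ?_
        simp [h none, code, jmp, cfg, hk]
      have h2 := h1.trans (ihq (fun y => ι (some (.inr y))) e (fun x => h (some (.inr x))) st L)
      simpa only [den, cost, hk, if_false, start] using h2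
  | rep k p ih =>
    intro ι e h st L
    have h0 : Steps m (cfg (ι (.inl 0)) st L []) (cfg (ι (.inl 1)) st (Γ'.comma :: L) []) 1 := by
      refine Steps.one ?_
      simp [h (.inl 0), code, jmp, cfg, upd_2]
    have h1 := steps_copy1 (m := m) k (ι (.inl 1)) (ι (.inl 2)) (h (.inl 1)) (st.reg k) st
      (Γ'.comma :: L) [] rfl
    have h2 := steps_copy2 (m := m) k (ι (.inl 2)) (ι (.inl 3)) (h (.inl 2)) (st.reg k)
      { st with reg := update st.reg k 0 } (List.replicate (st.reg k) Γ'.blank ++ Γ'.comma :: L)
    have h3 := steps_loop (m := m) (den p) (cost p) (ι (.inl 3)) (ι (.inr (start p))) e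
      (h (.inl 3)) (ih (fun y => ι (.inr y)) _ (fun x => h (.inr x))) (st.reg k) st L
    simp only [update_idem, update_self, zero_add, update_eq_self, List.append_nil] at h1 h2
    exact ((h0.trans h1).trans h2).trans h3

end Steps

/-- The machine of a program. -/
def machine [Fintype K] (p : Prog K) : FinTM2 :=
  letI := labFin p
  { K := SK K
    k₀ := .inr 0
    k₁ := .inr 1
    Γ := fun _ => Γ'
    Λ := Option (Lab p)
    main := some (start p)
    σ := Option Γ'
    initialState := none
    m := fun l => match l with
      | none => .halt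
      | some x => code p some none x }

theorem machine_outputs [Fintype K] (p : Prog K) (inp out : List Γ') (t : ℕ)
    (h : den p ⟨fun _ => 0, inp, []⟩ = ⟨fun _ => 0, [], out⟩)
    (ht : cost p ⟨fun _ => 0, inp, []⟩ + 1 ≤ t) :
    Nonempty (TM2OutputsInTime (machine p) inp (some out) t) := by
  have h1 := steps_code (m := (machine p).m) p some none (fun _ => rfl) ⟨fun _ => 0, inp, []⟩ []
  rw [h] at h1
  have h2 : Steps (machine p).m (cfg none ⟨fun _ => 0, [], out⟩ [] [])
      ⟨none, none, stk ⟨fun _ => 0, [], out⟩ [] []⟩ 1 := Steps.one rfl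
  have h3 := h1.trans h2
  have e1 : initList (machine p) inp = cfg (some (start p)) ⟨fun _ => 0, inp, []⟩ [] [] := by
    unfold initList cfg
    congr 1
    funext s
    rcases s with k | i
    · rfl
    · fin_cases i <;> rfl
  have e2 : haltList (machine p) out = ⟨none, none, stk ⟨fun _ => 0, [], out⟩ [] []⟩ := by
    unfold haltList
    congr 1
    funext s
    rcases s with k | i
    · rfl
    · fin_cases i <;> rfl
  refine ⟨⟨⟨_, ?_⟩, ht⟩⟩
  show (flip bind (machine p).step)^[_] (some (initList (machine p) inp)) =
    some (haltList (machine p) out)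
  rw [e1, e2]
  exact h3

end Vale.Agent.P314
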