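import Mathlib
import Vale.Agent.P314.Loop

/-! Stratified loop programs run in polynomial time. -/

namespace Vale.Agent.P314

open Function

variable {K : Type} [DecidableEq K]

/-- Registers that may be increased. -/
def incs : Prog K → List K
  | .inc k => [k]
  | .read k => [k]
  | .seq p q => incs p ++ incs q
  | .ifz _ p q => incs p ++ incs q
  | .rep _ p => incs p
  | _ => []

/-- Number of increment instructions. -/
def wt : Prog K → ℕ
  | .inc _ => 1
  | .seq p q => wt p + wt q
  | .ifz _ p q => wt p + wt q
  | .rep _ p => wt p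
  | _ => 0

/-- Loop depth. -/
def depth : Prog K → ℕ
  | .seq p q => max (depth p) (depth q)
  | .ifz _ p q => max (depth p) (depth q)
  | .rep _ p => depth p + 1
  | _ => 0

/-- Weighted size. -/
def Wt : Prog K → ℕ
  | .seq p q => Wt p + Wt q
  | .ifz _ p q => 1 + Wt p + Wt q
  | .rep _ p => 4 + Wt p
  | _ => 1

/-- Stratification: a loop only increases registers of higher level than its counter. -/
def Strat (lvl : K → ℕ) : Prog K → Prop
  | .read _ => False
  | .seq p q => Strat lvl p ∧ Strat lvl q
  | .ifz _ p q => Strat lvl p ∧ Strat lvl q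
  | .rep k p => Strat lvl p ∧ ∀ k' ∈ incs p, lvl k < lvl k'
  | _ => True

theorem den_le_of_not_incs (p : Prog K) (k : K) (hk : k ∉ incs p) (st : St K) :
    (den p st).reg k ≤ st.reg k := by
  induction p generalizing st with
  | skip => exact le_rfl
  | inc k' =>
    have : k ≠ k' := by simpa [incs] using hk
    simp [den, update_of_ne this]
  | dec k' =>
    by_cases h : k = k'
    · subst h; simp [den]
    · simp [den, update_of_ne h]
  | emit c => exact le_rfl
  | read k' =>
    have : k ≠ k' := by simpa [incs] using hk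
    simp [den, update_of_ne this]
  | seq p q ihp ihq =>
    simp only [incs, List.mem_append, not_or] at hk
    exact (ihq hk.2 _).trans (ihp hk.1 _)
  | ifz k' p q ihp ihq =>
    simp only [incs, List.mem_append, not_or] at hk
    simp only [den]
    split_ifs
    · exact ihp hk.1 _
    · exact ihq hk.2 _
  | rep k' p ih =>
    simp only [den]
    generalize st.reg k' = x
    induction x with
    | zero => exact le_rfl
    | succ x ihx =>
      rw [iterate_succ_apply']
      exact (ih hk _).trans ihx

theorem cost_bound (lvl β G : K → ℕ) (Bm : ℕ) (hG : ∀ k k', lvl k' < lvl k → β k' + 1 ≤ G k)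
    (hG1 : ∀ k, 1 ≤ G k) (hB : ∀ k, β k ≤ Bm) (p : Prog K) (hs : Strat lvl p) (st : St K)
    (h : ∀ k, st.reg k + wt p * G k ^ depth p ≤ β k) :
    cost p st ≤ Wt p * (Bm + 1) ^ depth p ∧
      ∀ k, (den p st).reg k ≤ st.reg k + wt p * G k ^ depth p := by
  have hmono : ∀ (k : K) (a b : ℕ), a ≤ b → G k ^ a ≤ G k ^ b :=
    fun k a b hab => Nat.pow_le_pow_right (hG1 k) hab
  have hmonoB : ∀ (a b : ℕ), a ≤ b → (Bm + 1) ^ a ≤ (Bm + 1) ^ b :=
    fun a b hab => Nat.pow_le_pow_right (by omega) hab
  induction p generalizing st with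
  | skip => simp [cost, Wt, depth, den]
  | inc k' =>
    refine ⟨by simp [cost, Wt, depth], fun k => ?_⟩
    by_cases h : k = k'
    · subst h; simp [den, wt, depth]
    · simp [den, update_of_ne h]
  | dec k' =>
    refine ⟨by simp [cost, Wt, depth], fun k => ?_⟩
    exact (den_le_of_not_incs _ k (by simp [incs]) st).trans (Nat.le_add_right _ _)
  | emit c => simp [cost, Wt, depth, den]
  | read k' => exact hs.elim
  | seq p q ihp ihq =>
    simp only [wt, depth, Wt, cost, den] at h ⊢
    have a1 := fun k => Nat.mul_le_mul_left (wt p) (hmono k _ _ (le_max_left (depth p) (depth q)))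
    have a2 := fun k => Nat.mul_le_mul_left (wt q) (hmono k _ _ (le_max_right (depth p) (depth q)))
    have b1 := Nat.mul_le_mul_left (Wt p) (hmonoB _ _ (le_max_left (depth p) (depth q)))
    have b2 := Nat.mul_le_mul_left (Wt q) (hmonoB _ _ (le_max_right (depth p) (depth q)))
    obtain ⟨c1, d1⟩ := ihp hs.1 st (fun k => by
      have := h k; have := a1 k; rw [add_mul] at *; omega)
    obtain ⟨c2, d2⟩ := ihq hs.2 (den p st) (fun k => by
      have := h k; have := a1 k; have := a2 k; have := d1 k; rw [add_mul] at *; omega)
    refine ⟨by rw [add_mul]; omega, fun k => ?_⟩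
    have := a1 k; have := a2 k; have := d1 k; have := d2 k
    rw [add_mul]; omega
  | ifz k' p q ihp ihq =>
    simp only [wt, depth, Wt, cost, den] at h ⊢
    have a1 := fun k => Nat.mul_le_mul_left (wt p) (hmono k _ _ (le_max_left (depth p) (depth q)))
    have a2 := fun k => Nat.mul_le_mul_left (wt q) (hmono k _ _ (le_max_right (depth p) (depth q)))
    have b1 := Nat.mul_le_mul_left (Wt p) (hmonoB _ _ (le_max_left (depth p) (depth q)))
    have b2 := Nat.mul_le_mul_left (Wt q) (hmonoB _ _ (le_max_right (depth p) (depth q)))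
    have b3 : 1 ≤ (Bm + 1) ^ max (depth p) (depth q) := Nat.one_le_pow _ _ (by omega)
    obtain ⟨c1, d1⟩ := ihp hs.1 st (fun k => by
      have := h k; have := a1 k; rw [add_mul] at *; omega)
    obtain ⟨c2, d2⟩ := ihq hs.2 st (fun k => by
      have := h k; have := a2 k; rw [add_mul] at *; omega)
    refine ⟨?_, fun k => ?_⟩
    · rw [add_mul, add_mul]
      split_ifs <;> omega
    · have := a1 k; have := a2 k; have := d1 k; have := d2 k
      rw [add_mul]
      split_ifs <;> omega
  | rep k' p ih =>
    simp only [wt, depth, Wt, cost, den] at h ⊢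
    have hx : st.reg k' ≤ β k' := le_trans (Nat.le_add_right _ _) (h k')
    have key : ∀ i ≤ st.reg k',
        (∀ k, ((den p)^[i] st).reg k ≤ st.reg k +
          (if lvl k' < lvl k then i * (wt p * G k ^ depth p) else 0)) ∧
        ∑ j ∈ Finset.range i, (1 + cost p ((den p)^[j] st)) ≤
          i * (1 + Wt p * (Bm + 1) ^ depth p) := by
      intro i
      induction i with
      | zero => intro _; simp
      | succ i ihi =>
        intro hi
        obtain ⟨e1, e2⟩ := ihi (by omega)
        obtain ⟨c1, d1⟩ := ih hs.1 ((den p)^[i] st) (fun k => by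
          have h1 := e1 k
          have h2 := h k
          split_ifs at h1 with hl
          · have h3 := hG k k' hl
            have h4 : (i + 1) * (wt p * G k ^ depth p) ≤ G k * (wt p * G k ^ depth p) :=
              Nat.mul_le_mul_right _ (by omega)
            have h5 : wt p * G k ^ (depth p + 1) = G k * (wt p * G k ^ depth p) := by ring
            rw [add_mul] at h4
            omega
          · have := Nat.mul_le_mul_left (wt p) (hmono k _ _ (Nat.le_add_right (depth p) 1))
            omega)
        refine ⟨fun k => ?_, ?_⟩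
        · rw [iterate_succ_apply']
          have h1 := e1 k
          split_ifs at h1 ⊢ with hl
          · have := d1 k
            rw [add_mul]
            omega
          · have hk : k ∉ incs p := fun hk => hl (hs.2 k hk)
            exact (den_le_of_not_incs p k hk _).trans h1
        · rw [Finset.sum_range_succ, add_mul]
          omega
    obtain ⟨e1, e2⟩ := key _ le_rfl
    refine ⟨?_, fun k => ?_⟩
    · have h1 : st.reg k' ≤ Bm := hx.trans (hB k')
      have h2 : 1 ≤ (Bm + 1) ^ depth p := Nat.one_le_pow _ _ (by omega)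
      have h3 : st.reg k' * (1 + Wt p * (Bm + 1) ^ depth p) ≤
        st.reg k' + (Bm + 1) * (Wt p * (Bm + 1) ^ depth p) := by
        rw [mul_add, mul_one]
        exact Nat.add_le_add_left (Nat.mul_le_mul_right _ (by omega)) _
      have h4 : (4 + Wt p) * (Bm + 1) ^ (depth p + 1) =
        4 * ((Bm + 1) * (Bm + 1) ^ depth p) + (Bm + 1) * (Wt p * (Bm + 1) ^ depth p) := by ring
      have h5 : (Bm + 1) * 1 ≤ (Bm + 1) * (Bm + 1) ^ depth p := Nat.mul_le_mul_left _ h2
      omega
    · have h1 := e1 k
      split_ifs at h1 with hl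
      · have h3 := hG k k' hl
        have h4 : st.reg k' * (wt p * G k ^ depth p) ≤ G k * (wt p * G k ^ depth p) :=
          Nat.mul_le_mul_right _ (by omega)
        have h5 : wt p * G k ^ (depth p + 1) = G k * (wt p * G k ^ depth p) := by ring
        omega
      · omega

/-- The tower of polynomial bounds. -/
noncomputable def gpoly (w d : ℕ) : ℕ → Polynomial ℕ
  | 0 => 1
  | l + 1 => gpoly w d l + Polynomial.X + Polynomial.C w * gpoly w d l ^ d + 1

theorem exists_poly_cost [Fintype K] (lvl : K → ℕ) (p : Prog K) (hs : Strat lvl p) :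
    ∃ Q : Polynomial ℕ, ∀ (st : St K) (x : ℕ), (∀ k, st.reg k ≤ x) → cost p st ≤ Q.eval x := by
  refine ⟨Polynomial.C (Wt p) *
    (gpoly (wt p) (depth p) (Finset.univ.sup lvl + 1) + 1) ^ depth p, fun st x hx => ?_⟩
  let g : ℕ → ℕ := fun l => (gpoly (wt p) (depth p) l).eval x
  have hg : ∀ l, g (l + 1) = g l + x + wt p * g l ^ depth p + 1 := by
    intro l
    simp [g, gpoly]
  have hg0 : g 0 = 1 := by simp [g, gpoly]
  have hmono : Monotone g := monotone_nat_of_le_succ fun l => by rw [hg]; omega
  have := (cost_bound lvl (fun k => x + wt p * g (lvl k) ^ depth p) (fun k => g (lvl k))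
    (g (Finset.univ.sup lvl + 1)) (fun k k' hl => by
      have := hmono (show lvl k' + 1 ≤ lvl k from hl)
      rw [hg] at this
      omega) (fun k => hg0 ▸ hmono (Nat.zero_le _)) (fun k => by
      have := hmono (show lvl k + 1 ≤ Finset.univ.sup lvl + 1 from
        Nat.succ_le_succ (Finset.le_sup (Finset.mem_univ k)))
      rw [hg] at this
      omega) p hs st (fun k => Nat.add_le_add_right (hx k) _)).1
  simpa [g] using this

end Vale.Agent.P314
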