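import Mathlib
import Vale.Agent.P314.LoopTime

/-! Derived constructs of the loop language. -/

namespace Vale.Agent.P314

open Function Computability

variable {K : Type} [DecidableEq K]

/-- Registers that may be changed. -/
def mods : Prog K → List K
  | .inc k => [k]
  | .dec k => [k]
  | .read k => [k]
  | .seq p q => mods p ++ mods q
  | .ifz _ p q => mods p ++ mods q
  | .rep _ p => mods p
  | _ => []

theorem den_of_not_mods (p : Prog K) (k : K) (hk : k ∉ mods p) (st : St K) :
    (den p st).reg k = st.reg k := by
  induction p generalizing st with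
  | skip => rfl
  | inc k' =>
    have : k ≠ k' := by simpa [mods] using hk
    simp [den, update_of_ne this]
  | dec k' =>
    have : k ≠ k' := by simpa [mods] using hk
    simp [den, update_of_ne this]
  | emit c => rfl
  | read k' =>
    have : k ≠ k' := by simpa [mods] using hk
    simp [den, update_of_ne this]
  | seq p q ihp ihq =>
    simp only [mods, List.mem_append, not_or] at hk
    exact (ihq hk.2 _).trans (ihp hk.1 _)
  | ifz k' p q ihp ihq =>
    simp only [mods, List.mem_append, not_or] at hk
    simp only [den]
    split_ifs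
    · exact ihp hk.1 _
    · exact ihq hk.2 _
  | rep k' p ih =>
    simp only [den]
    generalize st.reg k' = x
    induction x with
    | zero => rfl
    | succ x ihx =>
      rw [iterate_succ_apply']
      exact (ih hk _).trans ihx

/-- Polynomial expressions in the registers. -/
inductive Ex (K : Type) : Type
  | var : K → Ex K
  | one : Ex K
  | add : Ex K → Ex K → Ex K
  | mul : Ex K → Ex K → Ex K

/-- Value of an expression. -/
def Ex.val (ρ : K → ℕ) : Ex K → ℕ
  | .var k => ρ k
  | .one => 1
  | .add a b => a.val ρ + b.val ρ
  | .mul a b => a.val ρ * b.val ρ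

/-- Registers of an expression. -/
def Ex.vars : Ex K → List K
  | .var k => [k]
  | .one => []
  | .add a b => a.vars ++ b.vars
  | .mul a b => a.vars ++ b.vars

omit [DecidableEq K] in
theorem Ex.val_congr (e : Ex K) {ρ ρ' : K → ℕ} (h : ∀ k ∈ e.vars, ρ k = ρ' k) :
    e.val ρ = e.val ρ' := by
  induction e with
  | var k => exact h k (by simp [vars])
  | one => rfl
  | add a b iha ihb =>
    simp only [vars, List.mem_append] at h
    simp only [val, iha fun k hk => h k (Or.inl hk), ihb fun k hk => h k (Or.inr hk)]
  | mul a b iha ihb =>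
    simp only [vars, List.mem_append] at h
    simp only [val, iha fun k hk => h k (Or.inl hk), ihb fun k hk => h k (Or.inr hk)]

theorem Ex.val_update (e : Ex K) (ρ : K → ℕ) (v : K) (x : ℕ) (h : v ∉ e.vars) :
    e.val (update ρ v x) = e.val ρ :=
  e.val_congr fun k hk => update_of_ne (by rintro rfl; exact h hk) _ _

/-- Repeat a program as many times as the value of an expression. -/
def repE : Ex K → Prog K → Prog K
  | .var k, p => .rep k p
  | .one, p => p
  | .add a b, p => .seq (repE a p) (repE b p)
  | .mul a b, p => repE a (repE b p)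

omit [DecidableEq K] in
@[simp] theorem mem_mods_repE (e : Ex K) (p : Prog K) (k : K) :
    k ∈ mods (repE e p) ↔ k ∈ mods p := by
  induction e generalizing p with
  | var k => rfl
  | one => rfl
  | add a b iha ihb => simp [repE, mods, iha, ihb]
  | mul a b iha ihb => simp [repE, iha, ihb]

omit [DecidableEq K] in
@[simp] theorem mem_incs_repE (e : Ex K) (p : Prog K) (k : K) :
    k ∈ incs (repE e p) ↔ k ∈ incs p := by
  induction e generalizing p with
  | var k => rfl
  | one => rfl
  | add a b iha ihb => simp [repE, incs, iha, ihb]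
  | mul a b iha ihb => simp [repE, iha, ihb]

omit [DecidableEq K] in
theorem strat_repE (lvl : K → ℕ) (e : Ex K) (p : Prog K) (hp : Strat lvl p)
    (h : ∀ v ∈ e.vars, ∀ k ∈ incs p, lvl v < lvl k) : Strat lvl (repE e p) := by
  induction e generalizing p with
  | var v => exact ⟨hp, h v (by simp [Ex.vars])⟩
  | one => exact hp
  | add a b iha ihb =>
    simp only [Ex.vars, List.mem_append] at h
    exact ⟨iha p hp fun v hv => h v (Or.inl hv), ihb p hp fun v hv => h v (Or.inr hv)⟩
  | mul a b iha ihb =>
    simp only [Ex.vars, List.mem_append] at h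
    refine iha _ (ihb p hp fun v hv => h v (Or.inr hv)) fun v hv k hk => ?_
    exact h v (Or.inl hv) k ((mem_incs_repE _ _ _).mp hk)

theorem iter_reg_of_not_mods (p : Prog K) (k : K) (hk : k ∉ mods p) (x : ℕ) (st : St K) :
    ((den p)^[x] st).reg k = st.reg k := by
  induction x with
  | zero => rfl
  | succ x ih => rw [iterate_succ_apply', den_of_not_mods p k hk, ih]

theorem den_repE (e : Ex K) (p : Prog K) (h : ∀ v ∈ e.vars, v ∉ mods p) (st : St K) :
    den (repE e p) st = (den p)^[e.val st.reg] st := by
  induction e generalizing p st with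
  | var k => rfl
  | one => rfl
  | add a b iha ihb =>
    simp only [Ex.vars, List.mem_append] at h
    simp only [repE, den, Ex.val]
    rw [iha p (fun v hv => h v (Or.inl hv)), ihb p (fun v hv => h v (Or.inr hv)), add_comm,
      iterate_add_apply]
    congr 1
    exact b.val_congr fun k hk => iter_reg_of_not_mods p k (h k (Or.inr hk)) _ _
  | mul a b iha ihb =>
    simp only [Ex.vars, List.mem_append] at h
    simp only [repE, Ex.val]
    rw [iha _ (fun v hv => by simpa using h v (Or.inl hv))]
    generalize a.val st.reg = x
    induction x with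
    | zero => simp
    | succ x ihx =>
      rw [iterate_succ_apply', ihx, ihb p (fun v hv => h v (Or.inr hv)), add_mul, one_mul,
        add_comm, iterate_add_apply]
      congr 1
      exact b.val_congr fun k hk => iter_reg_of_not_mods p k (h k (Or.inr hk)) _ _

theorem iter_inc (v : K) (x : ℕ) (st : St K) :
    (den (.inc v))^[x] st = { st with reg := update st.reg v (st.reg v + x) } := by
  induction x with
  | zero => simp
  | succ x ih => rw [iterate_succ_apply', ih]; simp [den, add_assoc]

theorem iter_dec (v : K) (x : ℕ) (st : St K) :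
    (den (.dec v))^[x] st = { st with reg := update st.reg v (st.reg v - x) } := by
  induction x with
  | zero => simp
  | succ x ih => rw [iterate_succ_apply', ih]; simp [den, Nat.sub_sub]

theorem iter_emit (c : Γ') (x : ℕ) (st : St K) :
    (den (.emit c))^[x] st = { st with out := List.replicate x c ++ st.out } := by
  induction x with
  | zero => simp
  | succ x ih => rw [iterate_succ_apply', ih]; simp [den, List.replicate_succ]

theorem den_addE (e : Ex K) (v : K) (h : v ∉ e.vars) (st : St K) :
    den (repE e (.inc v)) st = { st with reg := update st.reg v (st.reg v + e.val st.reg) } := by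
  rw [den_repE _ _ (fun u hu => by simp only [mods, List.mem_singleton]; rintro rfl; exact h hu),
    iter_inc]

theorem den_subE (e : Ex K) (v : K) (h : v ∉ e.vars) (st : St K) :
    den (repE e (.dec v)) st = { st with reg := update st.reg v (st.reg v - e.val st.reg) } := by
  rw [den_repE _ _ (fun u hu => by simp only [mods, List.mem_singleton]; rintro rfl; exact h hu),
    iter_dec]

/-- Set a register to zero. -/
def clear (v : K) : Prog K := .rep v (.dec v)

theorem den_clear (v : K) (st : St K) :
    den (clear v) st = { st with reg := update st.reg v 0 } := by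
  show (den (.dec v))^[st.reg v] st = _
  rw [iter_dec, Nat.sub_self]

/-- The program prepends `g` to the output and restores the registers. -/
def Gen (Z : List K) (p : Prog K) (g : (K → ℕ) → List Γ') : Prop :=
  ∀ st : St K, (∀ k ∈ Z, st.reg k = 0) → den p st = { st with out := g st.reg ++ st.out }

theorem Gen.congr {Z : List K} {p : Prog K} {g g' : (K → ℕ) → List Γ'} (h : Gen Z p g)
    (e : ∀ ρ, g ρ = g' ρ) : Gen Z p g' := by
  rwa [← funext e]

theorem Gen.seq {Z : List K} {p q : Prog K} {g g' : (K → ℕ) → List Γ'} (h : Gen Z p g)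
    (h' : Gen Z q g') : Gen Z (.seq p q) (fun ρ => g' ρ ++ g ρ) := by
  intro st hst
  simp only [den]
  rw [h st hst, h' { st with out := g st.reg ++ st.out } hst]
  simp

theorem Gen.emit (Z : List K) (c : Γ') : Gen Z (.emit c) (fun _ => [c]) := fun _ _ => rfl

/-- Output a fixed word. -/
def emitL : List Γ' → Prog K
  | [] => .skip
  | c :: l => .seq (emitL l) (.emit c)

omit [DecidableEq K] in
@[simp] theorem mods_emitL (l : List Γ') : mods (emitL l : Prog K) = [] := by
  induction l with
  | nil => rfl
  | cons c l ih => simp [emitL, mods, ih]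

omit [DecidableEq K] in
@[simp] theorem incs_emitL (l : List Γ') : incs (emitL l : Prog K) = [] := by
  induction l with
  | nil => rfl
  | cons c l ih => simp [emitL, incs, ih]

omit [DecidableEq K] in
@[simp] theorem strat_emitL (lvl : K → ℕ) (l : List Γ') : Strat lvl (emitL l : Prog K) := by
  induction l with
  | nil => trivial
  | cons c l ih => exact ⟨ih, trivial⟩

theorem Gen.emitL (Z : List K) (l : List Γ') : Gen Z (emitL l) (fun _ => l) := by
  induction l with
  | nil => intro st _; rfl
  | cons c l ih => exact ih.seq (Gen.emit Z c)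

theorem Gen.repEmit (Z : List K) (e : Ex K) (c : Γ') :
    Gen Z (repE e (.emit c)) (fun ρ => List.replicate (e.val ρ) c) := by
  intro st _
  rw [den_repE _ _ (by simp [mods]), iter_emit]

/-- A counting loop, with the index going down. -/
def forDown (v : K) (e : Ex K) (p : Prog K) : Prog K :=
  .seq (repE e (.inc v)) (repE e (.seq (.dec v) p))

theorem Gen.forDown {Z : List K} {p : Prog K} {g : (K → ℕ) → List Γ'} (h : Gen Z p g)
    (v : K) (e : Ex K) (hv : v ∉ e.vars) (hZ : v ∉ Z) (he : ∀ u ∈ e.vars, u ∉ mods p) :
    Gen (v :: Z) (forDown v e p)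
      (fun ρ => (List.range (e.val ρ)).flatMap fun x => g (update ρ v x)) := by
  intro st hst
  have hv0 : st.reg v = 0 := hst v (by simp)
  simp only [Vale.Agent.P314.forDown, den]
  rw [den_addE e v hv, den_repE _ _ (fun u hu => by
    simp only [mods, List.mem_append, List.mem_singleton, not_or]
    exact ⟨by rintro rfl; exact hv hu, he u hu⟩)]
  simp only [hv0, zero_add, e.val_update _ _ _ hv]
  generalize e.val st.reg = N
  obtain ⟨ρ, inp, out⟩ := st
  simp only at hv0 hst ⊢
  induction N generalizing out with
  | zero =>
    have : update ρ v 0 = ρ := by rw [← hv0, update_eq_self]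
    simp [this]
  | succ N ih =>
    rw [iterate_succ_apply]
    have : den (.seq (.dec v) p) ⟨update ρ v (N + 1), inp, out⟩ =
        ⟨update ρ v N, inp, g (update ρ v N) ++ out⟩ := by
      simp only [den, update_self, update_idem, Nat.add_sub_cancel]
      rw [h]
      intro k hk
      have : k ≠ v := by rintro rfl; exact hZ hk
      simp only [update_of_ne this]
      exact hst k (List.mem_cons_of_mem _ hk)
    rw [this, ih, List.range_succ, List.flatMap_append]
    simp

/-- Comparison. -/
def ifLe (t : K) (x y : Ex K) (p q : Prog K) : Prog K :=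
  .seq (repE x (.inc t)) (.seq (repE y (.dec t)) (.ifz t p (.seq (clear t) q)))

theorem Gen.ifLe {Z : List K} {p q : Prog K} {g g' : (K → ℕ) → List Γ'} (h : Gen Z p g)
    (h' : Gen Z q g') (t : K) (x y : Ex K) (ht : t ∈ Z) (hx : t ∉ x.vars) (hy : t ∉ y.vars) :
    Gen Z (ifLe t x y p q) (fun ρ => if x.val ρ ≤ y.val ρ then g ρ else g' ρ) := by
  intro st hst
  have ht0 : st.reg t = 0 := hst t ht
  have e0 : update st.reg t 0 = st.reg := by rw [← ht0, update_eq_self]
  simp only [Vale.Agent.P314.ifLe, den]
  rw [den_addE x t hx, den_subE y t hy]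
  simp only [update_self, update_idem, ht0, zero_add, y.val_update _ _ _ hy, den_clear, e0]
  by_cases hle : x.val st.reg ≤ y.val st.reg
  · simp only [Nat.sub_eq_zero_of_le hle, if_true, hle, e0]
    exact h st hst
  · rw [if_neg (by omega), if_neg hle]
    exact h' st hst

/-- One step of the divisibility counter. -/
def dvdStep (c : K) (e : Ex K) : Prog K := .seq (.ifz c (repE e (.inc c)) .skip) (.dec c)

/-- Divisibility test `e ∣ x - y`. -/
def ifDvd (u c : K) (e x y : Ex K) (p q : Prog K) : Prog K :=
  .seq (repE x (.inc u)) (.seq (repE y (.dec u)) (.seq (.rep u (dvdStep c e))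
    (.seq (clear u) (.ifz c p (.seq (clear c) q)))))

theorem iter_dvdStep (c : K) (e : Ex K) (hc : c ∉ e.vars) (st : St K) (h0 : st.reg c = 0)
    (he : 0 < e.val st.reg) (x : ℕ) :
    ∃ z, z < e.val st.reg ∧ e.val st.reg ∣ x + z ∧
      (den (dvdStep c e))^[x] st = { st with reg := update st.reg c z } := by
  induction x with
  | zero =>
    have : update st.reg c 0 = st.reg := by rw [← h0, update_eq_self]
    exact ⟨0, he, by simp, by simp [this]⟩
  | succ x ih =>
    obtain ⟨z, hz, hd, h⟩ := ih
    rw [iterate_succ_apply', h]
    by_cases hz0 : z = 0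
    · subst hz0
      refine ⟨e.val st.reg - 1, by omega, ?_, ?_⟩
      · rw [show x + 1 + (e.val st.reg - 1) = x + 0 + e.val st.reg by omega]
        exact dvd_add hd dvd_rfl
      · simp [dvdStep, den, den_addE e c hc, e.val_update _ _ _ hc]
    · refine ⟨z - 1, by omega, ?_, ?_⟩
      · rwa [show x + 1 + (z - 1) = x + z by omega]
      · simp [dvdStep, den, hz0]

theorem Gen.ifDvd {Z : List K} {p q : Prog K} {g g' : (K → ℕ) → List Γ'} (h : Gen Z p g)
    (h' : Gen Z q g') (u c : K) (e x y : Ex K) (hu : u ∈ Z) (hc : c ∈ Z) (huc : u ≠ c)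
    (hx : u ∉ x.vars) (hy : u ∉ y.vars) (heu : u ∉ e.vars) (hec : c ∉ e.vars)
    (he : ∀ ρ, 0 < e.val ρ) :
    Gen Z (ifDvd u c e x y p q) (fun ρ => if e.val ρ ∣ x.val ρ - y.val ρ then g ρ else g' ρ) := by
  intro st hst
  have hu0 : st.reg u = 0 := hst u hu
  have hc0 : st.reg c = 0 := hst c hc
  have e0 : update st.reg u 0 = st.reg := by rw [← hu0, update_eq_self]
  have e1 : update st.reg c 0 = st.reg := by rw [← hc0, update_eq_self]
  simp only [Vale.Agent.P314.ifDvd, den]
  rw [den_addE x u hx, den_subE y u hy]
  simp only [update_self, update_idem, hu0, zero_add, y.val_update _ _ _ hy]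
  obtain ⟨z, hz, hd, hit⟩ := iter_dvdStep c e hec
    { st with reg := update st.reg u (x.val st.reg - y.val st.reg) }
    (by simp [update_of_ne huc.symm, hc0]) (he _) (x.val st.reg - y.val st.reg)
  simp only [e.val_update _ _ _ heu] at hz hd
  rw [hit]
  have e2 : ∀ a b, update (update (update st.reg u a) c b) u 0 = update st.reg c b := by
    intro a b
    rw [update_comm huc.symm, update_idem, e0]
  simp only [den_clear, e2, update_self, update_idem, e1]
  by_cases hz0 : z = 0
  · subst hz0
    rw [if_pos rfl, if_pos (by simpa using hd), e1]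
    exact h st hst
  · rw [if_neg hz0, if_neg]
    · exact h' st hst
    · intro hd'
      have := (Nat.dvd_add_right hd').mp hd
      exact hz0 (Nat.eq_zero_of_dvd_of_lt this hz)

end Vale.Agent.P314
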