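import Mathlib
import Vale.Agent.P314.LoopLib
import Vale.Agent.P314.Hit

/-! The program that writes down the hitting set. -/

namespace Vale.Agent.P314

open Function Computability

/-- Registers. -/
inductive Rg : Type
  | N | S | B | J | k | r | a | r' | t | u | c
  deriving DecidableEq

instance : Fintype Rg where
  elems := {.N, .S, .B, .J, .k, .r, .a, .r', .t, .u, .c}
  complete := fun v => by cases v <;> decide

set_option linter.constructorNameAsVariable false

/-- Levels of the registers. -/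
def Rg.lvl : Rg → ℕ
  | .N => 0 | .S => 0 | .B => 1 | .J => 1 | .k => 1 | .r => 1 | .a => 1 | .r' => 1
  | .t => 2 | .u => 2 | .c => 3

/-- `s + 1`. -/
def eM : Ex Rg := .add (.var .S) .one
/-- `n (s + 1)`. -/
def eNM : Ex Rg := .mul (.var .N) eM
/-- The truncation order. -/
def eOrd : Ex Rg := .add (.mul eNM (.add (.add eNM eNM) .one)) .one
/-- The exponent. -/
def eExp : Ex Rg := .add (.add (.add (.var .B) .one) (.var .J)) (.mul (.var .N) (.var .a))

/-- One entry. -/
def pEntry (c0 c1 : List Γ') : Prog Rg :=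
  ifLe .t (.add (.var .a) .one) (.var .k)
    (ifLe .t (.var .r') (.var .r)
      (ifDvd .u .c eExp (.var .r) (.var .r') (emitL c1) (emitL c0)) (emitL c0)) (emitL c0)

/-- One row. -/
def pRow (c0 c1 : List Γ') : Prog Rg :=
  .seq (.emit .ket) (.seq (forDown .a eM (forDown .r' eOrd (pEntry c0 c1))) (.emit .bra))

/-- One matrix. -/
def pMat (c0 c1 : List Γ') : Prog Rg :=
  .seq (.emit .ket) (.seq (forDown .k eM (forDown .r eOrd (pRow c0 c1))) (.emit .bra))

/-- One point. -/
def pPoint (c0 c1 : List Γ') : Prog Rg :=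
  .seq (.emit .ket) (.seq (forDown .J (.var .N) (pMat c0 c1))
    (.seq (repE (.mul eM eOrd) (.emit .blank)) (.emit .bra)))

/-- All points. -/
def pSet (c0 c1 : List Γ') : Prog Rg := forDown .B (.add eNM .one) (pPoint c0 c1)

/-- After reading the input. -/
def pBody (c0 c1 : List Γ') : Prog Rg := .seq (pSet c0 c1) (.seq (clear .N) (clear .S))

/-- The whole program. -/
def pMain (c0 c1 : List Γ') : Prog Rg := .seq (.read .N) (.seq (.read .S) (pBody c0 c1))

variable (c0 c1 : List Γ')

theorem mods_entry (v : Rg) : v ∈ mods (pEntry c0 c1) ↔ v = .t ∨ v = .u ∨ v = .c := by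
  cases v <;> simp [pEntry, ifLe, ifDvd, dvdStep, clear, mods]

theorem mods_forDown (w v : Rg) (e : Ex Rg) (p : Prog Rg) :
    w ∈ mods (forDown v e p) ↔ w = v ∨ w ∈ mods p := by
  simp [forDown, mods]

theorem mods_row (v : Rg) :
    v ∈ mods (pRow c0 c1) ↔ v = .a ∨ v = .r' ∨ v = .t ∨ v = .u ∨ v = .c := by
  simp [pRow, mods, mods_forDown, mods_entry]

theorem mods_mat (v : Rg) : v ∈ mods (pMat c0 c1) ↔
    v = .k ∨ v = .r ∨ v = .a ∨ v = .r' ∨ v = .t ∨ v = .u ∨ v = .c := by
  simp [pMat, mods, mods_forDown, mods_row]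

theorem mods_point (v : Rg) : v ∈ mods (pPoint c0 c1) ↔
    v = .J ∨ v = .k ∨ v = .r ∨ v = .a ∨ v = .r' ∨ v = .t ∨ v = .u ∨ v = .c := by
  simp [pPoint, mods, mods_forDown, mods_mat]

theorem gen_entry : Gen [.t, .u, .c] (pEntry c0 c1) (fun ρ =>
    if entTest (ρ .N) (ρ .B) (ρ .J) (ρ .k) (ρ .r) (ρ .a) (ρ .r') then c1 else c0) := by
  have h0 : Gen [Rg.t, .u, .c] (emitL c0) (fun _ => c0) := Gen.emitL _ c0
  have h1 : Gen [Rg.t, .u, .c] (emitL c1) (fun _ => c1) := Gen.emitL _ c1
  have h2 := Gen.ifDvd h1 h0 .u .c eExp (.var .r) (.var .r')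
    (by simp) (by simp) (by simp) (by simp [Ex.vars]) (by simp [Ex.vars])
    (by simp [eExp, Ex.vars]) (by simp [eExp, Ex.vars])
    (fun ρ => by simp only [eExp, Ex.val]; omega)
  have h3 := Gen.ifLe h2 h0 .t (.var .r') (.var .r) (by simp) (by simp [Ex.vars])
    (by simp [Ex.vars])
  have h4 := Gen.ifLe h3 h0 .t (.add (.var .a) .one) (.var .k) (by simp) (by simp [Ex.vars])
    (by simp [Ex.vars])
  refine h4.congr fun ρ => ?_
  simp only [Ex.val, eExp, entTest, Nat.add_one_le_iff]
  by_cases a1 : ρ .a < ρ .k <;> by_cases a2 : ρ .r' ≤ ρ .r <;>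
    by_cases a3 : ρ .B + 1 + ρ .J + ρ .N * ρ .a ∣ ρ .r - ρ .r' <;> simp [a1, a2, a3]

theorem val_eM (ρ : Rg → ℕ) : eM.val ρ = ρ .S + 1 := rfl
theorem val_eOrd (ρ : Rg → ℕ) : eOrd.val ρ = ordM (ρ .N) (ρ .S) := rfl

/-- The code of a row. -/
def gRow (n s b j k r : ℕ) : List Γ' :=
  Γ'.bra :: (List.range (s + 1)).flatMap (fun a => (List.range (ordM n s)).flatMap fun r' =>
    if entTest n b j k r a r' then c1 else c0) ++ [Γ'.ket]

theorem gen_row : Gen [.a, .r', .t, .u, .c] (pRow c0 c1) (fun ρ =>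
    gRow c0 c1 (ρ .N) (ρ .S) (ρ .B) (ρ .J) (ρ .k) (ρ .r)) := by
  refine ((Gen.emit _ _).seq ((((gen_entry c0 c1).forDown .r' eOrd
    (by simp [eOrd, eNM, eM, Ex.vars]) (by simp)
    (by simp [eOrd, eNM, eM, Ex.vars, mods_entry])).forDown .a eM
    (by simp [eM, Ex.vars]) (by simp)
    (by simp [eM, Ex.vars, mods_entry, mods_forDown])).seq (Gen.emit _ _))).congr fun ρ => ?_
  simp [gRow, val_eM, val_eOrd]

/-- The code of a matrix. -/
def gMat (n s b j : ℕ) : List Γ' :=
  Γ'.bra :: (List.range (s + 1)).flatMap (fun k => (List.range (ordM n s)).flatMap fun r =>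
    gRow c0 c1 n s b j k r) ++ [Γ'.ket]

theorem gen_mat : Gen [.k, .r, .a, .r', .t, .u, .c] (pMat c0 c1) (fun ρ =>
    gMat c0 c1 (ρ .N) (ρ .S) (ρ .B) (ρ .J)) := by
  refine ((Gen.emit _ _).seq ((((gen_row c0 c1).forDown .r eOrd
    (by simp [eOrd, eNM, eM, Ex.vars]) (by simp)
    (by simp [eOrd, eNM, eM, Ex.vars, mods_row])).forDown .k eM
    (by simp [eM, Ex.vars]) (by simp)
    (by simp [eM, Ex.vars, mods_row, mods_forDown])).seq (Gen.emit _ _))).congr fun ρ => ?_
  simp [gMat, val_eM, val_eOrd]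

/-- The code of a point. -/
def gPoint (n s b : ℕ) : List Γ' :=
  Γ'.bra :: List.replicate ((s + 1) * ordM n s) Γ'.blank ++
    (List.range n).flatMap (fun j => gMat c0 c1 n s b j) ++ [Γ'.ket]

theorem gen_point : Gen [.J, .k, .r, .a, .r', .t, .u, .c] (pPoint c0 c1) (fun ρ =>
    gPoint c0 c1 (ρ .N) (ρ .S) (ρ .B)) := by
  refine ((Gen.emit _ _).seq (((gen_mat c0 c1).forDown .J (.var .N)
    (by simp [Ex.vars]) (by simp)
    (by simp [Ex.vars, mods_mat])).seq ((Gen.repEmit _ _ _).seq (Gen.emit _ _)))).congr fun ρ => ?_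
  simp [gPoint, Ex.val, val_eM, val_eOrd]

/-- The code of the set. -/
def gSet (n s : ℕ) : List Γ' :=
  (List.range (n * (s + 1) + 1)).flatMap fun b => gPoint c0 c1 n s b

theorem gen_set : Gen [.B, .J, .k, .r, .a, .r', .t, .u, .c] (pSet c0 c1) (fun ρ =>
    gSet c0 c1 (ρ .N) (ρ .S)) := by
  refine ((gen_point c0 c1).forDown .B _
    (by simp [eNM, eM, Ex.vars]) (by simp)
    (by simp [eNM, eM, Ex.vars, mods_point])).congr fun ρ => ?_
  simp [gSet, Ex.val, eNM, val_eM]

theorem ones_replicate_append (x : ℕ) (l : List Γ') :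
    ones (List.replicate x (Γ'.bit true) ++ l) = x + ones l := by
  induction x with
  | zero => simp
  | succ x ih => simp [List.replicate_succ, ones, ih]; ring

theorem rest_replicate_append (x : ℕ) (l : List Γ') :
    rest (List.replicate x (Γ'.bit true) ++ l) = rest l := by
  induction x with
  | zero => simp
  | succ x ih => simp [List.replicate_succ, rest, ih]

theorem ones_input (p : ℕ × ℕ) : ones (inputCode p) = p.1 := by
  simp [inputCode, ones_replicate_append, ones]

theorem rest_input (p : ℕ × ℕ) : rest (inputCode p) = List.replicate p.2 (Γ'.bit true) := by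
  simp [inputCode, rest_replicate_append, rest]

theorem ones_replicate (x : ℕ) : ones (List.replicate x (Γ'.bit true)) = x := by
  simpa [ones] using ones_replicate_append x []

theorem rest_replicate (x : ℕ) : rest (List.replicate x (Γ'.bit true)) = [] := by
  simpa [rest] using rest_replicate_append x []

theorem den_read (p : ℕ × ℕ) :
    den (.read Rg.S) (den (.read Rg.N) ⟨fun _ => 0, inputCode p, []⟩) =
      ⟨update (update (fun _ => 0) .N p.1) .S p.2, [], []⟩ := by
  simp [den, ones_input, rest_input, ones_replicate, rest_replicate]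

theorem den_main (p : ℕ × ℕ) :
    den (pMain c0 c1) ⟨fun _ => 0, inputCode p, []⟩ = ⟨fun _ => 0, [], gSet c0 c1 p.1 p.2⟩ := by
  show den (clear Rg.S) (den (clear Rg.N) (den (pSet c0 c1)
    (den (.read Rg.S) (den (.read Rg.N) ⟨fun _ => 0, inputCode p, []⟩)))) = _
  rw [den_read, gen_set c0 c1 _ (by simp), den_clear, den_clear]
  ext1
  · funext v
    cases v <;> simp
  · rfl
  · simp

theorem incs_forDown (w v : Rg) (e : Ex Rg) (p : Prog Rg) :
    w ∈ incs (forDown v e p) ↔ w = v ∨ w ∈ incs p := by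
  simp [forDown, incs]

theorem strat_forDown (v : Rg) (e : Ex Rg) (p : Prog Rg) (hp : Strat Rg.lvl p)
    (h0 : ∀ u ∈ e.vars, u.lvl = 0) (hv : 0 < v.lvl) (hi : ∀ k ∈ incs p, 0 < k.lvl) :
    Strat Rg.lvl (forDown v e p) := by
  refine ⟨strat_repE _ _ _ trivial ?_, strat_repE _ _ _ ⟨trivial, hp⟩ ?_⟩
  · intro u hu k hk
    simp only [incs, List.mem_singleton] at hk
    rw [h0 u hu, hk]
    exact hv
  · intro u hu k hk
    simp only [incs, List.nil_append] at hk
    rw [h0 u hu]
    exact hi k hk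

theorem strat_clear (v : Rg) : Strat Rg.lvl (clear v) := ⟨trivial, by simp [incs]⟩

theorem strat_ifLe (x y : Ex Rg) (p q : Prog Rg) (hp : Strat Rg.lvl p) (hq : Strat Rg.lvl q)
    (hx : ∀ u ∈ x.vars, u.lvl < 2) : Strat Rg.lvl (ifLe .t x y p q) := by
  refine ⟨strat_repE _ _ _ trivial ?_, strat_repE _ _ _ trivial ?_, hp, strat_clear _, hq⟩
  · intro u hu k hk
    simp only [incs, List.mem_singleton] at hk
    subst hk
    exact hx u hu
  · simp [incs]

theorem strat_entry : Strat Rg.lvl (pEntry c0 c1) := by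
  refine strat_ifLe _ _ _ _ (strat_ifLe _ _ _ _ ?_ (by simp) (by simp [Ex.vars, Rg.lvl]))
    (by simp) (by simp [Ex.vars, Rg.lvl])
  refine ⟨strat_repE _ _ _ trivial (by simp [Ex.vars, incs, Rg.lvl]),
    strat_repE _ _ _ trivial (by simp [incs]), ⟨⟨⟨strat_repE _ _ _ trivial ?_, trivial⟩, trivial⟩,
      ?_⟩, strat_clear _, by simp, strat_clear _, by simp⟩
  · simp [eExp, Ex.vars, incs, Rg.lvl]
  · simp [dvdStep, incs, Rg.lvl]

theorem incs_entry (v : Rg) (h : v ∈ incs (pEntry c0 c1)) : 0 < v.lvl := by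
  cases v <;> simp [pEntry, ifLe, ifDvd, dvdStep, clear, incs, Rg.lvl] at h ⊢

theorem incs_row (v : Rg) (h : v ∈ incs (pRow c0 c1)) : 0 < v.lvl := by
  simp only [pRow, incs, List.nil_append, List.append_nil, incs_forDown] at h
  rcases h with rfl | rfl | h
  · decide
  · decide
  · exact incs_entry c0 c1 v h

theorem incs_mat (v : Rg) (h : v ∈ incs (pMat c0 c1)) : 0 < v.lvl := by
  simp only [pMat, incs, List.nil_append, List.append_nil, incs_forDown] at h
  rcases h with rfl | rfl | h
  · decide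
  · decide
  · exact incs_row c0 c1 v h

theorem incs_point (v : Rg) (h : v ∈ incs (pPoint c0 c1)) : 0 < v.lvl := by
  simp only [pPoint, incs, List.nil_append, List.append_nil, incs_forDown, List.mem_append,
    mem_incs_repE, List.not_mem_nil, or_false] at h
  rcases h with rfl | h
  · decide
  · exact incs_mat c0 c1 v h

theorem vars_eM : ∀ u ∈ eM.vars, u.lvl = 0 := by simp [eM, Ex.vars, Rg.lvl]
theorem vars_eOrd : ∀ u ∈ eOrd.vars, u.lvl = 0 := by simp [eOrd, eNM, eM, Ex.vars, Rg.lvl]

theorem strat_row : Strat Rg.lvl (pRow c0 c1) := by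
  refine ⟨trivial, strat_forDown _ _ _ (strat_forDown _ _ _ (strat_entry c0 c1) vars_eOrd
    (by decide) (incs_entry c0 c1)) vars_eM (by decide) ?_, trivial⟩
  intro v h
  rcases (incs_forDown _ _ _ _).mp h with rfl | h
  · decide
  · exact incs_entry c0 c1 v h

theorem strat_mat : Strat Rg.lvl (pMat c0 c1) := by
  refine ⟨trivial, strat_forDown _ _ _ (strat_forDown _ _ _ (strat_row c0 c1) vars_eOrd
    (by decide) (incs_row c0 c1)) vars_eM (by decide) ?_, trivial⟩
  intro v h
  rcases (incs_forDown _ _ _ _).mp h with rfl | h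
  · decide
  · exact incs_row c0 c1 v h

theorem strat_point : Strat Rg.lvl (pPoint c0 c1) :=
  ⟨trivial, strat_forDown _ _ _ (strat_mat c0 c1) (by simp [Ex.vars, Rg.lvl]) (by decide)
    (incs_mat c0 c1), strat_repE _ _ _ trivial (by simp [incs]), trivial⟩

theorem strat_body : Strat Rg.lvl (pBody c0 c1) :=
  ⟨strat_forDown _ _ _ (strat_point c0 c1) (by simp [eNM, eM, Ex.vars, Rg.lvl]) (by decide)
    (incs_point c0 c1), strat_clear _, strat_clear _⟩

theorem length_inputCode (p : ℕ × ℕ) : (inputCode p).length = p.1 + p.2 + 1 := by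
  simp [inputCode]; ring

theorem cost_main : ∃ Q : Polynomial ℕ, ∀ p : ℕ × ℕ,
    cost (pMain c0 c1) ⟨fun _ => 0, inputCode p, []⟩ + 1 ≤ Q.eval (inputCode p).length := by
  obtain ⟨Q, hQ⟩ := exists_poly_cost Rg.lvl (pBody c0 c1) (strat_body c0 c1)
  refine ⟨Q + Polynomial.X + 2, fun p => ?_⟩
  have h1 := hQ ⟨update (update (fun _ => 0) .N p.1) .S p.2, [], []⟩ (inputCode p).length (by
    intro v
    rw [length_inputCode]
    cases v <;> simp <;> omega)
  simp only [pMain, cost]
  rw [den_read]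
  simp only [den, ones_input, rest_input, ones_replicate, Polynomial.eval_add, Polynomial.eval_X,
    Polynomial.eval_ofNat]
  rw [length_inputCode] at *
  omega

theorem flatMap_finRange {β : Type*} (d : ℕ) (f : ℕ → List β) :
    (List.finRange d).flatMap (fun i : Fin d => f (i : ℕ)) = (List.range d).flatMap f := by
  rw [← List.map_coe_finRange_eq_range, List.flatMap_map]

theorem flatMap_range_mul {β : Type*} (m M : ℕ) (hM : 0 < M) (f : ℕ → ℕ → List β) :
    (List.range (m * M)).flatMap (fun i => f (i / M) (i % M)) =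
      (List.range m).flatMap fun a => (List.range M).flatMap fun r => f a r := by
  induction m with
  | zero => simp
  | succ m ih =>
    rw [Nat.succ_mul, List.range_add, List.flatMap_append, ih, List.range_succ,
      List.flatMap_append, List.flatMap_map]
    congr 1
    rw [List.flatMap_singleton]
    refine List.flatMap_congr fun r hr => ?_
    have hr := List.mem_range.mp hr
    rw [mul_comm, Nat.mul_add_div hM, Nat.mul_add_mod, Nat.div_eq_of_lt hr, Nat.mod_eq_of_lt hr,
      add_zero]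

theorem setCode_hset {F : Type} [Field F] (e : Encoding F Bool) (n s : ℕ) :
    setCode e (hset F n s) = gSet (entryCode e 0) (entryCode e 1) n s := by
  have hM := ordM_pos n s
  unfold setCode hset gSet
  rw [List.flatMap_map]
  refine List.flatMap_congr fun b _ => ?_
  unfold pointCode gPoint
  rw [← flatMap_finRange n]
  congr 2
  refine List.flatMap_congr fun j _ => ?_
  unfold matrixCode gMat
  rw [← flatMap_range_mul _ _ hM, ← flatMap_finRange]
  congr 2
  refine List.flatMap_congr fun ρ _ => ?_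
  unfold gRow
  rw [← flatMap_range_mul _ _ hM, ← flatMap_finRange]
  congr 2
  refine List.flatMap_congr fun κ _ => ?_
  simp only [mat]
  split_ifs <;> rfl

end Vale.Agent.P314
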